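import Vale.Agent.P141.H688.LeafI

/-!
# P141, line (A), (TI): from the leaves to `PartF D NT`

* `LeafX.and` : two leaves together;
* `ti_num` : the right side of `H408.TTf_le` with the numbers of the leaves;
* `nt_of_leaves : StageS → LeafC D LCap → LeafX D LAB → .. → PartF D NT`.
-/

namespace Vale.Agent.P141.H688

open Finset Matrix
open Vale.Agent.P141.PL (Pt iv hs ix cx mem_iv)
open Vale.Agent.P141.PL.H315 (Tri)
open Vale.Agent.P141.PL.H588 (Xg hd)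
open Vale.Agent.P141.H103 (QW qK)
open Vale.Agent.P141.H48 (US ES)
open Vale.Agent.P141.H305 (ClsM kapM)
open Vale.Agent.P141.H401 (FunF NS Bun StX PartX PartF)
open Vale.Agent.P141.H408 (Caps PABf PBCf PCAf StageS StageC TTf TTf_le rCA SN)
open Vale.Agent.P141.H652 (NT DT ndT)
open Vale.Agent.P141.H585.PairCh (phs)
open Vale.Agent.P141.H186.ClosX (PartXg StF partF_of_gain)

noncomputable section

open scoped Classical

set_option linter.unusedSectionVars false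

/-- monotone in the constant `C` -/
def MonoL (Ψ : StL) : Prop :=
  ∀ (ι : Type) [Fintype ι] [DecidableEq ι] (p : H401.Num) (δ C0 C C' : ℝ) (n : ℕ) (ez : ℝ)
    (F1 F2 F3 : ℕ → Pt → ℝ) (o : ℤ) (K : ℕ) (x : Pt) (s r : ℝ) (U : Tri) (g : ℤ → ℤ → ℝ)
    (u v : ℤ → ℤ → ι → ℝ) (A : ℤ → ℕ → ℤ → ℤ → ℝ) (b Cf : ℤ → ℕ → ℤ → ℤ → ι → ℝ),
    0 < p.t → 0 < ez → 0 < s → 1 ≤ r → 1 ≤ C0 → C ≤ C' →
    Ψ ι p δ C0 C n ez F1 F2 F3 o K x s r U g u v A b Cf →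
    Ψ ι p δ C0 C' n ez F1 F2 F3 o K x s r U g u v A b Cf

/-- **Two leaves together.** -/
theorem LeafX.and {D : Bun} {Ψ1 Ψ2 : StL} (H1 : LeafX D Ψ1) (H2 : LeafX D Ψ2) (m1 : MonoL Ψ1)
    (m2 : MonoL Ψ2) : LeafX D fun ι _ _ p δ C0 C n ez F1 F2 F3 o K x s r U g u v A b Cf =>
      Ψ1 ι p δ C0 C n ez F1 F2 F3 o K x s r U g u v A b Cf ∧
      Ψ2 ι p δ C0 C n ez F1 F2 F3 o K x s r U g u v A b Cf := by
  intro a ha ha1
  obtain ⟨es1, hes1, H1⟩ := H1 a ha ha1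
  obtain ⟨es2, hes2, H2⟩ := H2 a ha ha1
  refine ⟨min es1 es2, lt_min hes1 hes2, fun e0 he0 he0' δ hδ => ?_⟩
  obtain ⟨k81, hk81, H1⟩ := H1 e0 he0 (he0'.trans (min_le_left _ _)) δ hδ
  obtain ⟨k82, hk82, H2⟩ := H2 e0 he0 (he0'.trans (min_le_right _ _)) δ hδ
  refine ⟨min k81 k82, lt_min hk81 hk82, fun k8 hk8 hk8' => ?_⟩
  obtain ⟨k31, hk31, H1⟩ := H1 k8 hk8 (hk8'.trans (min_le_left _ _))
  obtain ⟨k32, hk32, H2⟩ := H2 k8 hk8 (hk8'.trans (min_le_right _ _))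
  refine ⟨min k31 k32, lt_min hk31 hk32, fun k3 hk3 hk3' => ?_⟩
  obtain ⟨c1, d1, hc1, hd1, H1⟩ := H1 k3 hk3 (hk3'.trans (min_le_left _ _))
  obtain ⟨c2, d2, hc2, hd2, H2⟩ := H2 k3 hk3 (hk3'.trans (min_le_right _ _))
  refine ⟨min c1 c2, min d1 d2, lt_min hc1 hc2, lt_min hd1 hd2,
    fun c hc hcc d hd hdd Kt e cP L hK he hcP hL CD hCD C0 hC0 => ?_⟩
  obtain ⟨C1, hC1, H1⟩ := H1 c hc (hcc.trans (min_le_left _ _)) d hd (hdd.trans (min_le_left _ _))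
    Kt e cP L hK he hcP hL CD hCD C0 hC0
  obtain ⟨C2, hC2, H2⟩ := H2 c hc (hcc.trans (min_le_right _ _)) d hd
    (hdd.trans (min_le_right _ _)) Kt e cP L hK he hcP hL CD hCD C0 hC0
  refine ⟨max C1 C2, le_max_of_le_left hC1, ?_⟩
  intro t ht ht1 n ez F1 F2 F3 h1 h3 h2 hez o ho K hKn x ι _ _ s r U g' u v hs hr hcls A b Cf hD
  exact ⟨m1 ι _ δ C0 _ _ n ez F1 F2 F3 o K x s r U g' u v A b Cf ht hez hs hr hC0
      (le_max_left _ _) (H1 t ht ht1 n ez F1 F2 F3 h1 h3 h2 hez o ho K hKn x ι s r U g' u v hs hr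
        hcls A b Cf hD),
    m2 ι _ δ C0 _ _ n ez F1 F2 F3 o K x s r U g' u v A b Cf ht hez hs hr hC0
      (le_max_right _ _) (H2 t ht ht1 n ez F1 F2 F3 h1 h3 h2 hez o ho K hKn x ι s r U g' u v hs hr
        hcls A b Cf hD)⟩

theorem MonoL.and {Ψ1 Ψ2 : StL} (m1 : MonoL Ψ1) (m2 : MonoL Ψ2) :
    MonoL fun ι _ _ p δ C0 C n ez F1 F2 F3 o K x s r U g u v A b Cf =>
      Ψ1 ι p δ C0 C n ez F1 F2 F3 o K x s r U g u v A b Cf ∧
      Ψ2 ι p δ C0 C n ez F1 F2 F3 o K x s r U g u v A b Cf := by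
  intro ι _ _ p δ C0 C C' n ez F1 F2 F3 o K x s r U g u v A b Cf ht hez hs hr hC0 hC h
  exact ⟨m1 ι p δ C0 C C' n ez F1 F2 F3 o K x s r U g u v A b Cf ht hez hs hr hC0 hC h.1,
    m2 ι p δ C0 C C' n ez F1 F2 F3 o K x s r U g u v A b Cf ht hez hs hr hC0 hC h.2⟩

theorem yy_pos {p : H401.Num} {r : ℝ} (ht : 0 < p.t) (hr : 1 ≤ r) : 0 < yy p r :=
  div_pos ht (by linarith)

theorem mono_LAB : MonoL LAB := by
  intro ι _ _ p δ C0 C C' n ez F1 F2 F3 o K x s r U g u v A b Cf ht hez hs hr hC0 hC h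
  have hy := yy_pos ht hr
  have hth := H401.Num.th_pos ht hs hr
  intro w hw hw'
  refine (h w hw hw').trans ?_
  gcongr

theorem mono_LBC : MonoL LBC := by
  intro ι _ _ p δ C0 C C' n ez F1 F2 F3 o K x s r U g u v A b Cf ht hez hs hr hC0 hC h
  have hy := yy_pos ht hr
  have hth := H401.Num.th_pos ht hs hr
  intro w hw hw'
  refine (h w hw hw').trans ?_
  gcongr

theorem mono_LCA : MonoL LCA := by
  intro ι _ _ p δ C0 C C' n ez F1 F2 F3 o K x s r U g u v A b Cf ht hez hs hr hC0 hC h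
  have hy := yy_pos ht hr
  have hth := H401.Num.th_pos ht hs hr
  intro w hw hw'
  refine (h w hw hw').trans ?_
  gcongr

theorem mono_LBCr : MonoL LBCr := by
  intro ι _ _ p δ C0 C C' n ez F1 F2 F3 o K x s r U g u v A b Cf ht hez hs hr hC0 hC h
  have hy := yy_pos ht hr
  have hth := H401.Num.th_pos ht hs hr
  intro w hw
  have hw0 : 0 ≤ w := le_trans (mul_nonneg (mul_nonneg (Real.sqrt_nonneg _)
    (Real.rpow_nonneg hy.le _)) (by positivity)) hw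
  refine (h w hw).trans ?_
  gcongr

theorem mono_LCAr : MonoL LCAr := by
  intro ι _ _ p δ C0 C C' n ez F1 F2 F3 o K x s r U g u v A b Cf ht hez hs hr hC0 hC h
  have hy := yy_pos ht hr
  have hth := H401.Num.th_pos ht hs hr
  intro w hw
  have hw0 : 0 ≤ w := le_trans (mul_nonneg (mul_nonneg (Real.sqrt_nonneg _)
    (Real.rpow_nonneg hy.le _)) (by positivity)) hw
  refine (h w hw).trans ?_
  gcongr

/-! ### The arithmetic -/

/-- number of levels -/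
theorem levels {q δ : ℝ} (hq : 0 ≤ q) (hδ : 0 < δ) {Q : ℝ} (hQ : 1 ≤ Q) :
    ∃ C : ℝ, 1 ≤ C ∧ ∀ y : ℝ, 0 < y → y ≤ 1 → ∀ z : ℝ, z ≤ Q * y ^ (-q) →
      ∃ L : ℕ, z ≤ 2 ^ (L - 1) ∧ (L : ℝ) ≤ C * y ^ (-δ) := by
  set δ' : ℝ := δ / (2 * q + 1) with hδ'
  have h2q : 0 < 2 * q + 1 := by positivity
  have hδ'0 : 0 < δ' := div_pos hδ h2q
  refine ⟨(22 + 3 / δ') ^ 3 * (Q ^ 2) ^ δ', ?_, ?_⟩
  · have h1 : (1 : ℝ) ≤ (22 + 3 / δ') ^ 3 := one_le_pow₀ (by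
      have : 0 < 3 / δ' := by positivity
      linarith)
    have h2 : (1 : ℝ) ≤ (Q ^ 2) ^ δ' := Real.one_le_rpow (one_le_pow₀ hQ) hδ'0.le
    nlinarith
  intro y hy hy1 z hz
  have hyq : 1 ≤ y ^ (-q) := Real.one_le_rpow_of_pos_of_le_one_of_nonpos hy hy1 (by linarith)
  have hx1 : 1 ≤ (Q * y ^ (-q)) ^ 2 := one_le_pow₀ (by nlinarith)
  obtain ⟨L, hL, hLp⟩ := H186.XSum.exists_lev hδ'0 ((Q * y ^ (-q)) ^ 2) hx1
  refine ⟨L, ?_, ?_⟩
  · refine hz.trans ?_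
    have e4 : (4 : ℝ) ^ (L - 1) = (2 ^ (L - 1)) ^ 2 := by
      rw [← pow_mul, mul_comm, pow_mul]
      norm_num
    rw [e4] at hL
    exact (pow_le_pow_iff_left₀ (by positivity) (by positivity) (by norm_num)).1 hL
  · have h0 : (0 : ℝ) ≤ (L : ℝ) := Nat.cast_nonneg _
    have h1 : (L : ℝ) ≤ (20 + (L : ℝ)) ^ 3 := by
      nlinarith [mul_nonneg h0 h0, mul_nonneg (mul_nonneg h0 h0) h0]
    refine h1.trans (hLp.trans ?_)
    have e1 : ((Q * y ^ (-q)) ^ 2) ^ δ' = (Q ^ 2) ^ δ' * y ^ (-(2 * q * δ')) := by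
      rw [mul_pow, Real.mul_rpow (by positivity) (by positivity),
        ← Real.rpow_natCast (y ^ (-q)) 2, ← Real.rpow_mul hy.le, ← Real.rpow_mul hy.le]
      congr 2
      push_cast
      ring
    rw [e1, ← mul_assoc]
    refine mul_le_mul_of_nonneg_left (Real.rpow_le_rpow_of_exponent_ge hy hy1 ?_) (by positivity)
    have : 2 * q * δ' ≤ δ := by
      rw [hδ', ← mul_div_assoc, div_le_iff₀ h2q]
      nlinarith
    linarith

/-- **The right side of `H408.TTf_le` in numbers.** -/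
theorem ti_num {Cst C y s ez V τ e0 δ L₀ LL : ℝ} (hC : 1 ≤ C) (hy : 0 < y) (hy1 : y ≤ 1)
    (hs : 0 < s) (hez : 0 < ez) (hV : 0 < V) (hτ : 0 < τ) (he0 : 0 < e0) (hδ : 0 < δ)
    (hCst : 0 ≤ Cst) (hL : L₀ ≤ LL * y ^ (-δ)) :
    Cst * ((√(C * (s * y ^ (-δ) * V) * (C * (ez * s * y ^ (e0 / 2 - δ) * V))) +
        √(C * (s * y ^ (-δ) * V) * (C * (ez * s * y ^ (e0 / 4 - δ) * V))) +
        √(C * (ez * s * y ^ (e0 / 2 - δ) * V) * (C * (ez * s * y ^ (e0 / 4 - δ) * V))) /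
          (√ez * y ^ (e0 / 4))) * τ + C * (√ez * s * τ * y ^ (e0 / 8 - δ) * V) * L₀) ≤
      Cst * C * (3 + LL) * (√ez * s * τ * y ^ (e0 / 8 - 2 * δ) * V) := by
  have hC0 : 0 < C := by linarith
  have hsq : √ez * √ez = ez := Real.mul_self_sqrt hez.le
  have hse : 0 < √ez := Real.sqrt_pos.2 hez
  have rt : ∀ {a w : ℝ}, 0 ≤ w → a = w ^ 2 → √a = w := fun hw h => by
    rw [h, Real.sqrt_sq hw]
  have e1 : √(C * (s * y ^ (-δ) * V) * (C * (ez * s * y ^ (e0 / 2 - δ) * V))) =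
      C * (√ez * s * y ^ (e0 / 4 - δ) * V) := by
    refine rt (by positivity) ?_
    have h1 : y ^ (-δ) * y ^ (e0 / 2 - δ) = y ^ (e0 / 4 - δ) * y ^ (e0 / 4 - δ) := by
      rw [← Real.rpow_add hy, ← Real.rpow_add hy]
      congr 1
      ring
    calc C * (s * y ^ (-δ) * V) * (C * (ez * s * y ^ (e0 / 2 - δ) * V)) =
        C ^ 2 * s ^ 2 * V ^ 2 * ez * (y ^ (-δ) * y ^ (e0 / 2 - δ)) := by ring
      _ = C ^ 2 * s ^ 2 * V ^ 2 * (√ez * √ez) * (y ^ (e0 / 4 - δ) * y ^ (e0 / 4 - δ)) := by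
        rw [h1, hsq]
      _ = _ := by ring
  have e2 : √(C * (s * y ^ (-δ) * V) * (C * (ez * s * y ^ (e0 / 4 - δ) * V))) =
      C * (√ez * s * y ^ (e0 / 8 - δ) * V) := by
    refine rt (by positivity) ?_
    have h1 : y ^ (-δ) * y ^ (e0 / 4 - δ) = y ^ (e0 / 8 - δ) * y ^ (e0 / 8 - δ) := by
      rw [← Real.rpow_add hy, ← Real.rpow_add hy]
      congr 1
      ring
    calc C * (s * y ^ (-δ) * V) * (C * (ez * s * y ^ (e0 / 4 - δ) * V)) =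
        C ^ 2 * s ^ 2 * V ^ 2 * ez * (y ^ (-δ) * y ^ (e0 / 4 - δ)) := by ring
      _ = C ^ 2 * s ^ 2 * V ^ 2 * (√ez * √ez) * (y ^ (e0 / 8 - δ) * y ^ (e0 / 8 - δ)) := by
        rw [h1, hsq]
      _ = _ := by ring
  have e3 : √(C * (ez * s * y ^ (e0 / 2 - δ) * V) * (C * (ez * s * y ^ (e0 / 4 - δ) * V))) /
      (√ez * y ^ (e0 / 4)) = C * (√ez * s * y ^ (e0 / 8 - δ) * V) := by
    rw [div_eq_iff (by positivity)]
    refine rt (by positivity) ?_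
    have h1 : y ^ (e0 / 2 - δ) * y ^ (e0 / 4 - δ) =
        y ^ (e0 / 8 - δ) * y ^ (e0 / 4) * (y ^ (e0 / 8 - δ) * y ^ (e0 / 4)) := by
      rw [← Real.rpow_add hy, ← Real.rpow_add hy, ← Real.rpow_add hy]
      congr 1
      ring
    calc C * (ez * s * y ^ (e0 / 2 - δ) * V) * (C * (ez * s * y ^ (e0 / 4 - δ) * V)) =
        C ^ 2 * s ^ 2 * V ^ 2 * ez ^ 2 * (y ^ (e0 / 2 - δ) * y ^ (e0 / 4 - δ)) := by ring
      _ = C ^ 2 * s ^ 2 * V ^ 2 * (√ez * √ez) ^ 2 *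
          (y ^ (e0 / 8 - δ) * y ^ (e0 / 4) * (y ^ (e0 / 8 - δ) * y ^ (e0 / 4))) := by
        rw [h1, hsq]
      _ = _ := by ring
  rw [e1, e2, e3]
  set W : ℝ := √ez * s * τ * V with hW
  have hW0 : 0 < W := by positivity
  have m1 : y ^ (e0 / 4 - δ) ≤ y ^ (e0 / 8 - 2 * δ) :=
    Real.rpow_le_rpow_of_exponent_ge hy hy1 (by linarith)
  have m2 : y ^ (e0 / 8 - δ) ≤ y ^ (e0 / 8 - 2 * δ) :=
    Real.rpow_le_rpow_of_exponent_ge hy hy1 (by linarith)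
  have m3 : y ^ (e0 / 8 - δ) * L₀ ≤ LL * y ^ (e0 / 8 - 2 * δ) := by
    have h1 : y ^ (e0 / 8 - 2 * δ) = y ^ (e0 / 8 - δ) * y ^ (-δ) := by
      rw [← Real.rpow_add hy]
      congr 1
      ring
    rw [h1]
    calc y ^ (e0 / 8 - δ) * L₀ ≤ y ^ (e0 / 8 - δ) * (LL * y ^ (-δ)) :=
          mul_le_mul_of_nonneg_left hL (by positivity)
      _ = _ := by ring
  calc Cst * ((C * (√ez * s * y ^ (e0 / 4 - δ) * V) + C * (√ez * s * y ^ (e0 / 8 - δ) * V) +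
        C * (√ez * s * y ^ (e0 / 8 - δ) * V)) * τ + C * (√ez * s * τ * y ^ (e0 / 8 - δ) * V) * L₀) =
      Cst * C * W * (y ^ (e0 / 4 - δ) + 2 * y ^ (e0 / 8 - δ) + y ^ (e0 / 8 - δ) * L₀) := by
        rw [hW]; ring
    _ ≤ Cst * C * W * (y ^ (e0 / 8 - 2 * δ) + 2 * y ^ (e0 / 8 - 2 * δ) +
        LL * y ^ (e0 / 8 - 2 * δ)) := by
        refine mul_le_mul_of_nonneg_left ?_ (by positivity)
        linarith
    _ = _ := by rw [hW]; ring

/-! ### Signs and the empty case -/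

/-- the pair at the hub `x3` is nonnegative -/
theorem rCA_nonneg {κ : Type*} [Fintype κ] [DecidableEq κ] (C : ℤ → ℤ → κ → ℝ) (A : ℤ → ℤ → ℝ)
    (k : ℕ) (m : Pt) {z x : ℝ} (hz : 0 < z) (hx : 0 < x) : 0 ≤ rCA C A k m z x := by
  unfold rCA
  refine mul_nonneg (by positivity) (H420.trace_mul_nonneg ?_ ?_)
  · exact (P075.phi_psd ((H103.QW_psd (fun _ => PosSemidef.one) _ _).smul
      (inv_pos.2 (pow_pos hz 2)).le)).smul (pow_pos hz 2).le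
  · exact P075.psd_conj_symm ((P075.phi_psd ((PL.H588.Xg_psd k k (fun y z => A z y) m.2.1
      m.1).smul (inv_pos.2 (pow_pos hx 2)).le)).smul (pow_pos hx 2).le) (PL.H804.hd_symm k)

/-- no third function: nothing to pay -/
theorem NT_zero {ι : Type} [Fintype ι] [DecidableEq ι] {p : H401.Num} {K : ℕ} {x : Pt} {s : ℝ}
    {v : ℤ → ℤ → ι → ℝ} {A : ℤ → ℕ → ℤ → ℤ → ℝ} {b C : ℤ → ℕ → ℤ → ℤ → ι → ℝ}
    (hD : DT p 0 K x s v A b C) (l : ℝ) (o : ℤ) (Al : ℕ → Pt → Prop) (u : ℤ → ℤ → ι → ℝ)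
    (sg : ℕ → Pt → ℝ) : NT ι l o Al K x u A b C sg = 0 := by
  obtain ⟨φ, hφ, hC⟩ := hD.line
  unfold NT NS
  refine sum_eq_zero fun t _ => sum_eq_zero fun x0 _ => sum_eq_zero fun k hk =>
    sum_eq_zero fun m _ => ?_
  have h0 : ∀ z w, C x0 k z w = 0 := by
    intro z w
    have h1 := hφ k hk (ix k x0) w z
    rw [zero_mul] at h1
    have h2 : φ k (x0, w, z) ^ 2 ≤ 0 := (single_le_sum (f := fun y => φ k (y, w, z) ^ 2)
      (fun y _ => sq_nonneg _) (mem_iv.2 rfl)).trans h1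
    have h3 : φ k (x0, w, z) = 0 := pow_eq_zero_iff (two_ne_zero) |>.1
      (le_antisymm h2 (sq_nonneg _))
    rw [hC, h3, zero_smul]
  unfold ndT
  simp only [h0, mulVec_zero, zero_dotProduct, mul_zero, sum_const_zero, abs_zero]

/-- **From the leaves to `PartF D NT`.** -/
theorem nt_of_leaves {D : Bun} (hS : StageS)
    (hD : ∀ (ι : Type) [Fintype ι] [DecidableEq ι] (p : H401.Num) (n : ℕ) (ez : ℝ)
      (F1 F2 F3 : ℕ → Pt → ℝ) (o : ℤ) (K : ℕ) (x : Pt) (s r : ℝ) (U : Tri) (g : ℤ → ℤ → ℝ)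
      (u v : ℤ → ℤ → ι → ℝ) (A : ℤ → ℕ → ℤ → ℤ → ℝ) (b C : ℤ → ℕ → ℤ → ℤ → ι → ℝ),
      D ι p n ez F1 F2 F3 o K x s r U g u v A b C → DT p ez K x s v A b C)
    (hcap : LeafC D LCap) (hAB : LeafX D LAB) (hBC : LeafX D LBC) (hCA : LeafX D LCA)
    (hBCr : LeafX D LBCr) (hCAr : LeafX D LCAr) : PartF D NT := by
  obtain ⟨Cst, hCst, hSt⟩ := hS
  have H := LeafX.and (LeafX.and hAB hBC mono_LAB mono_LBC)
    (LeafX.and hCA (LeafX.and hBCr hCAr mono_LBCr mono_LCAr) mono_LCA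
      (MonoL.and mono_LBCr mono_LCAr)) (MonoL.and mono_LAB mono_LBC)
    (MonoL.and mono_LCA (MonoL.and mono_LBCr mono_LCAr))
  refine partF_of_gain ?_
  intro a ha ha1
  obtain ⟨es1, hes1, H⟩ := H a ha ha1
  obtain ⟨es2, hes2, hcap⟩ := hcap a ha ha1
  refine ⟨min es1 es2, lt_min hes1 hes2, fun e0 he0 he0' => ?_⟩
  have hδ : 0 < e0 / 64 := by positivity
  obtain ⟨k81, hk81, H⟩ := H e0 he0 (he0'.trans (min_le_left _ _)) (e0 / 64) hδ
  obtain ⟨k82, hk82, hcap⟩ := hcap e0 he0 (he0'.trans (min_le_right _ _))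
  refine ⟨min k81 k82, lt_min hk81 hk82, fun k8 hk8 hk8' => ?_⟩
  obtain ⟨k31, hk31, H⟩ := H k8 hk8 (hk8'.trans (min_le_left _ _))
  obtain ⟨k32, hk32, hcap⟩ := hcap k8 hk8 (hk8'.trans (min_le_right _ _))
  refine ⟨min (min k31 k32) (e0 / 32), lt_min (lt_min hk31 hk32) (by positivity),
    fun k3 hk3 hk3' => ?_⟩
  have hk3e : k3 ≤ e0 / 32 := hk3'.trans (min_le_right _ _)
  obtain ⟨c1, d1, hc1, hd1, H⟩ := H k3 hk3 (hk3'.trans ((min_le_left _ _).trans (min_le_left _ _)))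
  obtain ⟨c2, d2, hc2, hd2, hcap⟩ := hcap k3 hk3
    (hk3'.trans ((min_le_left _ _).trans (min_le_right _ _)))
  refine ⟨e0 / 16, 0, min c1 c2, min d1 d2, by positivity, le_rfl, lt_min hc1 hc2,
    lt_min hd1 hd2, fun c hc hcc d hd hdd Kt e cP L hK he hcP hL CD hCD => ?_⟩
  obtain ⟨C0, C1, hC0, hC1, hcap⟩ := hcap c hc (hcc.trans (min_le_right _ _)) d hd
    (hdd.trans (min_le_right _ _)) Kt e cP L hK he hcP hL CD hCD
  obtain ⟨C, hC, H⟩ := H c hc (hcc.trans (min_le_left _ _)) d hd (hdd.trans (min_le_left _ _))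
    Kt e cP L hK he hcP hL CD hCD C0 hC0
  obtain ⟨LL, hLL, hlev⟩ := levels (q := C1 + e0 / 4 + 1) (δ := e0 / 64) (by positivity) hδ
    (Q := C1) hC1
  refine ⟨Cst * C * (3 + LL) * C0, by positivity, ?_⟩
  intro t ht ht1 n ez F1 F2 F3 h1 h3 h2 o ho K hKn x ι _ _ s r U g' u v hs hr hcls A b Cf hDD sg _
  have hr0 : 0 < r := by linarith
  have hDT := hD ι _ n ez F1 F2 F3 o K x s r U g' u v A b Cf hDD
  rcases h2.1.eq_or_lt with hez | hez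
  · subst hez
    rw [NT_zero hDT]
    positivity
  obtain ⟨⟨g1, g2⟩, g3, g4, g5⟩ := H t ht ht1 n ez F1 F2 F3 h1 h3 h2 hez o ho K hKn x ι s r U g' u
    v hs hr hcls A b Cf hDD
  have g6 := hcap t ht ht1 n ez F1 F2 F3 h1 h3 h2 hez o ho K hKn x ι s r U g' u v hs hr hcls A b
    Cf hDD
  set p : H401.Num := ⟨a, e0, k8, k3, c, d, Kt, e, cP, L, CD, t⟩ with hp
  have hpt : 0 < p.t := ht
  have hl : 0 < p.lam s r := H401.Num.lam_pos hpt hs hr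
  have hth : 0 < p.th s r := H401.Num.th_pos hpt hs hr
  have hy : 0 < t / r := by positivity
  have hy1 : t / r ≤ 1 := by
    rw [div_le_one hr0]
    linarith
  have hyt : t / r ≤ t := div_le_self ht.le hr
  have hse : 0 < √ez := Real.sqrt_pos.2 hez
  set y : ℝ := t / r with hydef
  set τ : ℝ := C0 * p.th s r with hτdef
  have hτ : 0 < τ := by positivity
  have hτ' : τ = C0 * (t * s ^ (1 / 4 : ℝ) * y ^ (-k3)) := by
    rw [hτdef]
    congr 1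
    show t ^ (1 - k3) * s ^ (1 / 4 : ℝ) * r ^ k3 = _
    rw [hydef, Real.div_rpow ht.le hr0.le, Real.rpow_neg hr0.le, show 1 - k3 = 1 + -k3 by ring,
      Real.rpow_add ht, Real.rpow_one, div_inv_eq_mul]
    ring
  set θ : ℝ := √ez * y ^ (e0 / 4) with hθdef
  have hθ : 0 < θ := by positivity
  -- the number of levels
  have hlv : C1 * (√ez * s ^ (1 / 4 : ℝ) * y ^ (-C1)) / (θ * τ) ≤
      C1 * y ^ (-(C1 + e0 / 4 + 1)) := by
    rw [div_le_iff₀ (by positivity), hθdef, hτ']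
    have e1 : y ^ (-(C1 + e0 / 4 + 1)) * (y ^ (e0 / 4) * y ^ (-k3) * y) = y ^ (-C1 - k3) := by
      nth_rewrite 4 [← Real.rpow_one y]
      rw [← Real.rpow_add hy, ← Real.rpow_add hy, ← Real.rpow_add hy]
      congr 1
      ring
    have e2 : y ^ (-C1) ≤ y ^ (-C1 - k3) :=
      Real.rpow_le_rpow_of_exponent_ge hy hy1 (by linarith)
    have e3 : y ^ (-C1) ≤ C0 * (y ^ (-(C1 + e0 / 4 + 1)) * (y ^ (e0 / 4) * y ^ (-k3) * t)) := by
      have f1 : y ^ (-(C1 + e0 / 4 + 1)) * (y ^ (e0 / 4) * y ^ (-k3) * y) ≤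
          y ^ (-(C1 + e0 / 4 + 1)) * (y ^ (e0 / 4) * y ^ (-k3) * t) :=
        mul_le_mul_of_nonneg_left (mul_le_mul_of_nonneg_left hyt (by positivity)) (by positivity)
      have f2 : 0 ≤ y ^ (-(C1 + e0 / 4 + 1)) * (y ^ (e0 / 4) * y ^ (-k3) * t) := by positivity
      nlinarith
    calc C1 * (√ez * s ^ (1 / 4 : ℝ) * y ^ (-C1)) =
        C1 * (√ez * s ^ (1 / 4 : ℝ)) * y ^ (-C1) := by ring
      _ ≤ C1 * (√ez * s ^ (1 / 4 : ℝ)) *
          (C0 * (y ^ (-(C1 + e0 / 4 + 1)) * (y ^ (e0 / 4) * y ^ (-k3) * t))) :=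
        mul_le_mul_of_nonneg_left e3 (by positivity)
      _ = _ := by ring
  obtain ⟨L₀, hL₀, hL₀'⟩ := hlev y hy hy1 _ hlv
  have hLc : capC p C1 s r ez / 2 ^ (L₀ - 1) ≤ θ * τ := by
    rw [div_le_iff₀ (by positivity)]
    rw [div_le_iff₀ (by positivity)] at hL₀
    refine le_trans (le_of_eq ?_) (hL₀.trans (le_of_eq (mul_comm _ _)))
    rfl
  -- the stage
  have hT : ∀ z, θ * τ ≤ z → z ≤ capC p C1 s r ez →
      √(PBCf (wB p r) τ z ι (p.al U K) o K (cx K x) (fun _ _ => 0) (p.lam s r) u A b Cf *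
        PCAf (wB p r) z τ ι (p.al U K) o K (cx K x) (fun _ _ => 0) (p.lam s r) u A b Cf) ≤
      C * (√ez * s * τ * y ^ (e0 / 8 - e0 / 64) * 8 ^ K) * z := by
    intro z hz _
    have hz0 : 0 < z := lt_of_lt_of_le (by positivity) hz
    have a1 := g4 z hz
    have a2 := g5 z hz
    have n2 : 0 ≤ PCAf (wB p r) z τ ι (p.al U K) o K (cx K x) (fun _ _ => 0) (p.lam s r) u A b
        Cf := by
      unfold PCAf SN
      exact sum_nonneg fun _ _ => sum_nonneg fun _ _ => sum_nonneg fun _ _ =>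
        sum_nonneg fun _ _ => rCA_nonneg _ _ _ _ hz0 hτ
    refine Real.sqrt_le_iff.2 ⟨by positivity, ?_⟩
    refine (mul_le_mul a1 a2 n2 (by positivity)).trans (le_of_eq ?_)
    show C * (√ez * s * τ * y ^ (-(e0 / 64)) * 8 ^ K) * z *
      (C * (√ez * s * τ * y ^ (e0 / 4 - e0 / 64) * 8 ^ K) * z) = _
    have f1 : y ^ (-(e0 / 64)) * y ^ (e0 / 4 - e0 / 64) =
        y ^ (e0 / 8 - e0 / 64) * y ^ (e0 / 8 - e0 / 64) := by
      rw [← Real.rpow_add hy, ← Real.rpow_add hy]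
      congr 1
      ring
    calc _ = (C * (√ez * s * τ * 8 ^ K) * z) ^ 2 *
          (y ^ (-(e0 / 64)) * y ^ (e0 / 4 - e0 / 64)) := by ring
      _ = _ := by rw [f1]; ring
  have hmain := TTf_le (sg := fun _ _ => 0) hSt (be := wB p r)
    (Real.rpow_pos_of_pos hy _) hl (u := u) (A := A) (b := b) (C := Cf) (cA := τ) (cB := τ)
    (cC := capC p C1 s r ez) (θ := θ) (τ := τ) (P₀ := C * (s * y ^ (-(e0 / 64)) * 8 ^ K))
    (PA := C * (ez * s * y ^ (e0 / 2 - e0 / 64) * 8 ^ K))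
    (PB := C * (ez * s * y ^ (e0 / 4 - e0 / 64) * 8 ^ K))
    (κ' := C * (√ez * s * τ * y ^ (e0 / 8 - e0 / 64) * 8 ^ K)) (L₀ := L₀)
    hτ le_rfl hτ le_rfl (by unfold capC; have := hy; show 0 < C1 * (√ez * s ^ (1 / 4 : ℝ) * y ^ (-C1)); positivity)
    hθ (by positivity) (by positivity) (by positivity) (by positivity) hLc g6 g1 g2 g3 hT
  have hNT : NT ι (p.lam s r) o (p.al U K) K x u A b Cf sg =
      TTf ι (p.al U K) o K (cx K x) (fun _ _ => 0) (p.lam s r) u A b Cf := rfl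
  rw [hNT]
  refine hmain.trans ?_
  refine (ti_num hC hy hy1 hs hez (by positivity) hτ he0 hδ hCst hL₀').trans ?_
  rw [hτ']
  have s54 : s * s ^ (1 / 4 : ℝ) = s ^ (5 / 4 : ℝ) := by
    nth_rewrite 1 [← Real.rpow_one s]
    rw [← Real.rpow_add hs]
    norm_num
  have y1 : y ^ (-k3) * y ^ (e0 / 8 - 2 * (e0 / 64)) ≤ y ^ (e0 / 16) := by
    rw [← Real.rpow_add hy]
    exact Real.rpow_le_rpow_of_exponent_ge hy hy1 (by linarith)
  have t0 : t ^ (-(0 * (c + d))) = 1 := by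
    rw [zero_mul, neg_zero, Real.rpow_zero]
  rw [t0, mul_one]
  calc Cst * C * (3 + LL) * (√ez * s * (C0 * (t * s ^ (1 / 4 : ℝ) * y ^ (-k3))) *
        y ^ (e0 / 8 - 2 * (e0 / 64)) * 8 ^ K) =
      Cst * C * (3 + LL) * C0 * (t * (y ^ (-k3) * y ^ (e0 / 8 - 2 * (e0 / 64))) *
        (s * s ^ (1 / 4 : ℝ)) * √ez * 8 ^ K) := by ring
    _ ≤ Cst * C * (3 + LL) * C0 * (t * y ^ (e0 / 16) * (s * s ^ (1 / 4 : ℝ)) * √ez * 8 ^ K) := by
        gcongr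
    _ = _ := by rw [s54]

end

end Vale.Agent.P141.H688
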