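import Vale.Agent.P141.H186.Price

/-!
# P141, line (A), (TI): the raw stage closed, pure numbers

`raw_close` : a number `T` with the conclusion of the raw stage (`H408.StageYC`) for all parameters,
`y = t / r`, `V = s 8^K`: the parameters are chosen, `T ≤ Cf V τ y ^ (e0 / 8 - 2 δ)`.
-/

namespace Vale.Agent.P141.H688

noncomputable section

/-- number of levels -/
theorem lev_pow {q δ : ℝ} (hq : 0 ≤ q) (hδ : 0 < δ) {Q : ℝ} (hQ : 1 ≤ Q) :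
    ∃ C : ℝ, 1 ≤ C ∧ ∀ y : ℝ, 0 < y → y ≤ 1 → ∀ z : ℝ, z ≤ Q * y ^ (-q) →
      ∃ L : ℕ, z ≤ 2 ^ (L - 1) ∧ (L : ℝ) ≤ C * y ^ (-δ) := by
  set δ' : ℝ := δ / (2 * q + 1) with hδ'
  have h2q : 0 < 2 * q + 1 := by positivity
  have hδ'0 : 0 < δ' := div_pos hδ h2q
  refine ⟨(22 + 3 / δ') ^ 3 * (Q ^ 2) ^ δ', ?_, ?_⟩
  · have h1 : (1 : ℝ) ≤ (22 + 3 / δ') ^ 3 := one_le_pow₀ (by
      have : 0 < 3 / δ' := by positivity
      linarith)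
    have h2 : (1 : ℝ) ≤ (Q ^ 2) ^ δ' := Real.one_le_rpow (one_le_pow₀ hQ) hδ'0.le
    nlinarith
  intro y hy hy1 z hz
  have hyq : 1 ≤ y ^ (-q) := Real.one_le_rpow_of_pos_of_le_one_of_nonpos hy hy1 (by linarith)
  have hx1 : 1 ≤ (Q * y ^ (-q)) ^ 2 := one_le_pow₀ (by nlinarith)
  obtain ⟨L, hL, hLp⟩ := H186.XSum.exists_lev hδ'0 ((Q * y ^ (-q)) ^ 2) hx1
  refine ⟨L, ?_, ?_⟩
  · refine hz.trans ?_
    have e4 : (4 : ℝ) ^ (L - 1) = (2 ^ (L - 1)) ^ 2 := by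
      rw [← pow_mul, mul_comm, pow_mul]
      norm_num
    rw [e4] at hL
    exact (pow_le_pow_iff_left₀ (by positivity) (by positivity) (by norm_num)).1 hL
  · have h0 : (0 : ℝ) ≤ (L : ℝ) := Nat.cast_nonneg _
    have h1 : (L : ℝ) ≤ (20 + (L : ℝ)) ^ 3 := by
      nlinarith [mul_nonneg h0 h0, mul_nonneg (mul_nonneg h0 h0) h0]
    refine h1.trans (hLp.trans ?_)
    have e1 : ((Q * y ^ (-q)) ^ 2) ^ δ' = (Q ^ 2) ^ δ' * y ^ (-(2 * q * δ')) := by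
      rw [mul_pow, Real.mul_rpow (by positivity) (by positivity),
        ← Real.rpow_natCast (y ^ (-q)) 2, ← Real.rpow_mul hy.le, ← Real.rpow_mul hy.le]
      congr 2
      push_cast
      ring
    rw [e1, ← mul_assoc]
    refine mul_le_mul_of_nonneg_left (Real.rpow_le_rpow_of_exponent_ge hy hy1 ?_) (by positivity)
    have : 2 * q * δ' ≤ δ := by
      rw [hδ', ← mul_div_assoc, div_le_iff₀ h2q]
      nlinarith
    linarith

/-- the arithmetic of the conclusion -/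
theorem raw_final {Cst C V τ y e0 δ q m LA LB LC D L₀ L₁ : ℝ} (hC : 0 ≤ C) (hCst : 0 ≤ Cst)
    (hy : 0 < y) (hy1 : y ≤ 1) (hV : 0 < V) (hτ : 0 < τ) (he0 : 0 < e0) (hδ : 0 < δ)
    (hm : 4 / 3 * (q + e0 / 8) ≤ m) (hq : 0 ≤ q) (fD : 0 ≤ D)
    (hD' : D ≤ LA * y ^ (-δ)) (h0' : L₀ ≤ LB * y ^ (-δ)) (h1' : L₁ ≤ LC * y ^ (-δ)) :
    Cst * (C * y ^ (-δ) * V * (y ^ (e0 / 8) * τ) * L₀ +
        D * (√(C * y ^ (-δ) * V * (C * y ^ (-δ) * V * (y ^ (e0 / 4) * (τ * (y ^ (e0 / 4) * τ))))) +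
          √(C * y ^ (-δ) * V * (C * y ^ (-δ) * V * (τ * (y ^ (e0 / 4) * τ))))) +
        L₁ * √(C * y ^ (-δ) * V * (C * y ^ (-δ) * V * (τ * (y ^ (e0 / 4) * τ)))) +
        (C * y ^ (-δ) * V + C * y ^ (-δ) * V * y ^ (-q - m / 4)) * (y ^ m * τ)) ≤
      Cst * (C * (LB + 2 * LA + LC + 2)) * (V * τ * y ^ (e0 / 8 - 2 * δ)) := by
  set W : ℝ := C * y ^ (-δ) * V with hW
  have hW0 : 0 ≤ W := by positivity
  set X : ℝ := C * (V * τ * y ^ (e0 / 8 - 2 * δ)) with hX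
  have hX0 : 0 ≤ X := by positivity
  have rt : ∀ {a w : ℝ}, 0 ≤ w → a = w ^ 2 → √a = w := fun hw h => by
    rw [h, Real.sqrt_sq hw]
  have e8 : y ^ (e0 / 4) = y ^ (e0 / 8) * y ^ (e0 / 8) := by
    rw [← Real.rpow_add hy]
    congr 1
    ring
  have r1 : √(W * (W * (y ^ (e0 / 4) * (τ * (y ^ (e0 / 4) * τ))))) = W * (y ^ (e0 / 4) * τ) :=
    rt (by positivity) (by ring)
  have r2 : √(W * (W * (τ * (y ^ (e0 / 4) * τ)))) = W * (y ^ (e0 / 8) * τ) :=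
    rt (by positivity) (by rw [e8]; ring)
  rw [r1, r2]
  have hE : W * (y ^ (e0 / 8) * τ) * y ^ (-δ) = X := by
    have h1 : y ^ (-δ) * y ^ (-δ) * y ^ (e0 / 8) = y ^ (e0 / 8 - 2 * δ) := by
      rw [← Real.rpow_add hy, ← Real.rpow_add hy]
      congr 1
      ring
    rw [hW, hX, ← h1]
    ring
  set w : ℝ := W * (y ^ (e0 / 8) * τ) with hw
  have hw0 : 0 ≤ w := by positivity
  have k1 : W * (y ^ (e0 / 4) * τ) ≤ w := by
    have h1 : y ^ (e0 / 4) ≤ y ^ (e0 / 8) :=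
      Real.rpow_le_rpow_of_exponent_ge hy hy1 (by linarith)
    have h2 : y ^ (e0 / 4) * τ ≤ y ^ (e0 / 8) * τ := mul_le_mul_of_nonneg_right h1 hτ.le
    exact mul_le_mul_of_nonneg_left h2 hW0
  have k2 : (W + W * y ^ (-q - m / 4)) * (y ^ m * τ) ≤ 2 * X := by
    have e2 : y ^ (-δ) * y ^ (-q - m / 4) * y ^ m ≤ y ^ (e0 / 8 - 2 * δ) := by
      rw [← Real.rpow_add hy, ← Real.rpow_add hy]
      exact Real.rpow_le_rpow_of_exponent_ge hy hy1 (by linarith)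
    have e2' : y ^ (-δ) * y ^ m ≤ y ^ (e0 / 8 - 2 * δ) := by
      rw [← Real.rpow_add hy]
      exact Real.rpow_le_rpow_of_exponent_ge hy hy1 (by linarith)
    have hCV : 0 ≤ C * (V * τ) := by positivity
    have g1 := mul_le_mul_of_nonneg_left e2 hCV
    have g2 := mul_le_mul_of_nonneg_left e2' hCV
    calc (W + W * y ^ (-q - m / 4)) * (y ^ m * τ) =
        C * (V * τ) * (y ^ (-δ) * y ^ m) +
          C * (V * τ) * (y ^ (-δ) * y ^ (-q - m / 4) * y ^ m) := by rw [hW]; ring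
      _ ≤ C * (V * τ) * y ^ (e0 / 8 - 2 * δ) + C * (V * τ) * y ^ (e0 / 8 - 2 * δ) :=
        add_le_add g2 g1
      _ = _ := by rw [hX]; ring
  have key : ∀ {n LL : ℝ}, n ≤ LL * y ^ (-δ) → n * w ≤ LL * X := by
    intro n LL hn1
    calc n * w ≤ LL * y ^ (-δ) * w := mul_le_mul_of_nonneg_right hn1 hw0
      _ = _ := by rw [← hE]; ring
  have a0 := key h0'
  have aD := key hD'
  have a1 := key h1'
  have aD2 : D * (W * (y ^ (e0 / 4) * τ) + w) ≤ D * (w + w) :=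
    mul_le_mul_of_nonneg_left (by linarith) fD
  calc Cst * (w * L₀ + D * (W * (y ^ (e0 / 4) * τ) + w) + L₁ * w +
        (W + W * y ^ (-q - m / 4)) * (y ^ m * τ)) ≤
      Cst * (LB * X + 2 * (LA * X) + LC * X + 2 * X) := by
        refine mul_le_mul_of_nonneg_left ?_ hCst
        have a0' : w * L₀ ≤ LB * X := by
          rw [mul_comm]
          exact a0
        linarith
    _ = _ := by rw [hX]; ring

/-- **The raw stage, parameters chosen.** -/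
theorem raw_close {Cst e0 δ C q Cc qc : ℝ} (hCst : 0 ≤ Cst) (he0 : 0 < e0) (hδ : 0 < δ)
    (hC : 0 ≤ C) (hq : 0 ≤ q) (hCc : 1 ≤ Cc) (hqc : 0 ≤ qc) :
    ∃ Cf : ℝ, 0 ≤ Cf ∧ ∀ (y V τ cC T : ℝ) (PAB : ℝ → ℝ) (PBC PCA : ℝ → ℝ → ℝ), 0 < y → y ≤ 1 →
      0 < V → 0 < τ → 0 < cC → cC ≤ Cc * y ^ (-qc) * τ → y ^ (e0 / 4) * τ ≤ cC →
      (∀ x σ, 0 < x → 0 < σ → 0 ≤ PCA x σ) →
      (∀ h, 0 < h → h ≤ τ → PAB h ≤ C * y ^ (-δ) * V * h ^ 2) →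
      (∀ x, y ^ (e0 / 4) * τ ≤ x → x ≤ cC →
        PCA x τ ≤ C * y ^ (-δ) * V * (y ^ (e0 / 4) * (τ * x))) →
      (∀ x, y ^ (e0 / 4) * τ ≤ x → x ≤ cC → PBC τ x ≤ C * y ^ (-δ) * V * (τ * x)) →
      (∀ x σ, 0 < σ → σ ≤ x → PCA x σ ≤ C * y ^ (-δ) * V * x ^ 2) →
      (∀ h, 0 < h → h ≤ τ →
        PBC h h ≤ C * y ^ (-δ) * V * (y ^ (-q) * (h ^ 2 * (τ / h) ^ (1 / 4 : ℝ)))) →
      (∀ (P₀ P₁ QA QB Z κ' g σ e₂ : ℝ) (D L₀ L₁ : ℕ),
        0 ≤ P₀ → 0 ≤ P₁ → 0 ≤ QB → 0 ≤ Z → 0 ≤ κ' → 0 < e₂ →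
        τ / 2 ^ (D - 1) ≤ σ → σ ≤ e₂ → cC / 2 ^ (L₀ - 1) ≤ g → cC / 2 ^ (L₁ - 1) ≤ e₂ →
        (∀ h, 0 < h → h ≤ τ → PAB h ≤ P₀ * h ^ 2) →
        (∀ x, g ≤ x → x ≤ cC → √(PBC τ x * PCA x τ) ≤ κ' * x) →
        PCA g τ ≤ QA → PBC τ g ≤ QB →
        (∀ x, e₂ ≤ x → x ≤ g → PCA x σ ≤ P₁ * x ^ 2) →
        (∀ h, 0 < h → h ≤ e₂ → PBC h h ≤ Z * (h ^ 2 * √(e₂ / h))) →
        (∀ h, 0 < h → h ≤ e₂ → PCA h h ≤ Z * (h ^ 2 * √(e₂ / h))) →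
        T ≤ Cst * (κ' * L₀ + D * (√(P₀ * QA) + √(P₀ * QB)) + L₁ * √(P₁ * QB) +
          (P₀ + Z) * e₂)) →
      T ≤ Cf * (V * τ * y ^ (e0 / 8 - 2 * δ)) := by
  set m : ℝ := 4 / 3 * (q + e0 / 8) with hm
  have hm0 : 0 ≤ m := by positivity
  obtain ⟨LA, hLA, lA⟩ := lev_pow (q := m) (δ := δ) hm0 hδ (Q := 1) le_rfl
  obtain ⟨LB, hLB, lB⟩ := lev_pow (q := qc + e0 / 4) (δ := δ) (by positivity) hδ hCc
  obtain ⟨LC, hLC, lC⟩ := lev_pow (q := qc + m) (δ := δ) (by positivity) hδ hCc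
  refine ⟨Cst * (C * (LB + 2 * LA + LC + 2)), by positivity, ?_⟩
  intro y V τ cC T PAB PBC PCA hy hy1 hV hτ hcC hcC' hgc hn hAB hCA hBC hCA1 hBC1 hst
  have mono : ∀ {a b : ℝ}, b ≤ a → y ^ a ≤ y ^ b := fun h =>
    Real.rpow_le_rpow_of_exponent_ge hy hy1 h
  set g : ℝ := y ^ (e0 / 4) * τ with hg
  set e₂ : ℝ := y ^ m * τ with he₂
  have hg0 : 0 < g := by positivity
  have he0' : 0 < e₂ := by positivity
  have heτ : e₂ ≤ τ := by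
    have : y ^ m ≤ 1 := Real.rpow_le_one hy.le hy1 hm0
    nlinarith
  -- the numbers of levels
  obtain ⟨D, hD, hD'⟩ := lA y hy hy1 (1 * y ^ (-m)) le_rfl
  have hD2 : τ / 2 ^ (D - 1) ≤ e₂ := by
    rw [div_le_iff₀ (by positivity), he₂]
    have e1 : y ^ m * y ^ (-m) = 1 := by
      rw [← Real.rpow_add hy, add_neg_cancel, Real.rpow_zero]
    have h1 : y ^ m * (1 * y ^ (-m)) ≤ y ^ m * 2 ^ (D - 1) :=
      mul_le_mul_of_nonneg_left hD (by positivity)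
    rw [one_mul, e1] at h1
    nlinarith
  obtain ⟨L₀, h0, h0'⟩ := lB y hy hy1 (Cc * y ^ (-(qc + e0 / 4))) le_rfl
  have hL₀ : cC / 2 ^ (L₀ - 1) ≤ g := by
    rw [div_le_iff₀ (by positivity), hg]
    have e1 : y ^ (e0 / 4) * y ^ (-(qc + e0 / 4)) = y ^ (-qc) := by
      rw [← Real.rpow_add hy]
      congr 1
      ring
    have h1 : y ^ (e0 / 4) * (Cc * y ^ (-(qc + e0 / 4))) ≤ y ^ (e0 / 4) * 2 ^ (L₀ - 1) :=
      mul_le_mul_of_nonneg_left h0 (by positivity)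
    have h2 : y ^ (e0 / 4) * (Cc * y ^ (-(qc + e0 / 4))) = Cc * y ^ (-qc) := by
      rw [← e1]
      ring
    rw [h2] at h1
    calc cC ≤ Cc * y ^ (-qc) * τ := hcC'
      _ ≤ y ^ (e0 / 4) * 2 ^ (L₀ - 1) * τ := mul_le_mul_of_nonneg_right h1 hτ.le
      _ = _ := by ring
  obtain ⟨L₁, h1, h1'⟩ := lC y hy hy1 (Cc * y ^ (-(qc + m))) le_rfl
  have hL₁ : cC / 2 ^ (L₁ - 1) ≤ e₂ := by
    rw [div_le_iff₀ (by positivity), he₂]
    have e1 : y ^ m * y ^ (-(qc + m)) = y ^ (-qc) := by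
      rw [← Real.rpow_add hy]
      congr 1
      ring
    have h2 : y ^ m * (Cc * y ^ (-(qc + m))) ≤ y ^ m * 2 ^ (L₁ - 1) :=
      mul_le_mul_of_nonneg_left h1 (by positivity)
    have h3 : y ^ m * (Cc * y ^ (-(qc + m))) = Cc * y ^ (-qc) := by
      rw [← e1]
      ring
    rw [h3] at h2
    calc cC ≤ Cc * y ^ (-qc) * τ := hcC'
      _ ≤ y ^ m * 2 ^ (L₁ - 1) * τ := mul_le_mul_of_nonneg_right h2 hτ.le
      _ = _ := by ring
  -- the hypotheses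
  set W : ℝ := C * y ^ (-δ) * V with hW
  have hW0 : 0 ≤ W := by positivity
  set Z : ℝ := W * y ^ (-q - m / 4) with hZ
  have hZ0 : 0 ≤ Z := by positivity
  have hWZ : W ≤ Z := by
    have : 1 ≤ y ^ (-q - m / 4) := Real.one_le_rpow_of_pos_of_le_one_of_nonpos hy hy1 (by linarith)
    nlinarith
  have hT : ∀ x, g ≤ x → x ≤ cC → √(PBC τ x * PCA x τ) ≤ (W * (y ^ (e0 / 8) * τ)) * x := by
    intro x hx hx'
    have hx0 : 0 < x := lt_of_lt_of_le hg0 hx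
    refine Real.sqrt_le_iff.2 ⟨by positivity, ?_⟩
    refine (mul_le_mul (hBC x hx hx') (hCA x hx hx') (hn x τ hx0 hτ) (by positivity)).trans
      (le_of_eq ?_)
    have e1 : y ^ (e0 / 4) = y ^ (e0 / 8) * y ^ (e0 / 8) := by
      rw [← Real.rpow_add hy]
      congr 1
      ring
    rw [e1]
    ring
  have hr : ∀ h, 0 < h → h ≤ e₂ → 1 ≤ √(e₂ / h) := by
    intro h hh hh'
    rw [Real.one_le_sqrt, one_le_div hh]
    exact hh'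
  have hZA : ∀ h, 0 < h → h ≤ e₂ → PCA h h ≤ Z * (h ^ 2 * √(e₂ / h)) := by
    intro h hh hh'
    calc PCA h h ≤ W * h ^ 2 := hCA1 h h hh le_rfl
      _ ≤ Z * (h ^ 2 * √(e₂ / h)) :=
        mul_le_mul hWZ (le_mul_of_one_le_right (sq_nonneg h) (hr h hh hh')) (by positivity) hZ0
  have hZB : ∀ h, 0 < h → h ≤ e₂ → PBC h h ≤ Z * (h ^ 2 * √(e₂ / h)) := by
    intro h hh hh'
    refine (hBC1 h hh (hh'.trans heτ)).trans ?_
    have e1 : (τ / h) ^ (1 / 4 : ℝ) = y ^ (-(m / 4)) * (e₂ / h) ^ (1 / 4 : ℝ) := by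
      have e2 : τ / h = y ^ (-m) * (e₂ / h) := by
        rw [he₂, Real.rpow_neg hy.le]
        field_simp
      rw [e2, Real.mul_rpow (by positivity) (by positivity), ← Real.rpow_mul hy.le]
      congr 2
      ring
    have e3 : (e₂ / h) ^ (1 / 4 : ℝ) ≤ √(e₂ / h) := by
      rw [Real.sqrt_eq_rpow]
      exact Real.rpow_le_rpow_of_exponent_le ((one_le_div hh).2 hh') (by norm_num)
    have e4 : y ^ (-q - m / 4) = y ^ (-q) * y ^ (-(m / 4)) := by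
      rw [← Real.rpow_add hy]
      congr 1
    rw [e1, hZ, e4]
    calc W * (y ^ (-q) * (h ^ 2 * (y ^ (-(m / 4)) * (e₂ / h) ^ (1 / 4 : ℝ)))) ≤
        W * (y ^ (-q) * (h ^ 2 * (y ^ (-(m / 4)) * √(e₂ / h)))) := by gcongr
      _ = _ := by ring
  have main := hst W W (W * (y ^ (e0 / 4) * (τ * g))) (W * (τ * g)) Z (W * (y ^ (e0 / 8) * τ)) g e₂ e₂ D
    L₀ L₁ hW0 hW0 (by positivity) hZ0 (by positivity) he0' hD2 le_rfl hL₀ hL₁ hAB hT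
    (hCA g le_rfl hgc) (hBC g le_rfl hgc)
    (fun x hx _ => hCA1 x e₂ he0' hx) hZB hZA
  have fD : (0 : ℝ) ≤ (D : ℝ) := Nat.cast_nonneg _
  exact main.trans (raw_final (q := q) (m := m) hC hCst hy hy1 hV hτ he0 hδ
    (le_of_eq hm.symm) hq fD hD' h0' h1')

end

end Vale.Agent.P141.H688
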