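import Vale.Agent.P141.H688.NumI

/-!
# P141, line (A), (TI): leaves of the raw stage

Letters of `LeafI`. With `LCap`, `LBCr`, `LCAr` of `LeafI` the raw stage needs

* `LAB0` : the static pair, no slack;
* `LCA1` : the pair `(C~, A)` with `A` at a low level, static price;
* `LBC1` : the pair `(B~, C~)` at low levels, crude price.
-/

namespace Vale.Agent.P141.H688

open Finset Matrix
open Vale.Agent.P141.PL (Pt iv hs ix cx mem_iv)
open Vale.Agent.P141.PL.H315 (Tri)
open Vale.Agent.P141.H408 (PABf PBCf PCAf)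

noncomputable section

open scoped Classical

set_option linter.unusedSectionVars false

/-- the static pair `(A, B~)` at every level below the cap -/
def LAB0 : StL := fun ι _ _ p δ C0 C _ _ _ _ _ o K x s r U _ u _ A b Cf =>
  ∀ h, 0 < h → h ≤ C0 * p.th s r →
    PABf (wB p r) h ι (p.al U K) o K (cx K x) (fun _ _ => 0) (p.lam s r) u A b Cf ≤
      C * (s * yy p r ^ (-δ) * 8 ^ K) * h ^ 2

/-- the pair `(C~, A)`, the first slot at a level `σ` below the level of the third -/
def LCA1 : StL := fun ι _ _ p δ _ C _ ez _ _ _ o K x s r U _ u _ A b Cf =>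
  ∀ z σ, 0 < σ → √ez * σ ≤ z →
    PCAf (wB p r) z σ ι (p.al U K) o K (cx K x) (fun _ _ => 0) (p.lam s r) u A b Cf ≤
      C * (s * yy p r ^ (-δ) * 8 ^ K) * z ^ 2

/-- the pair `(B~, C~)` at low levels, crude -/
def LBC1 : StL := fun ι _ _ p _ C0 C _ ez _ _ _ o K x s r U _ u _ A b Cf =>
  ∀ h, 0 < h → h ≤ C0 * p.th s r →
    PBCf (wB p r) h (√ez * h) ι (p.al U K) o K (cx K x) (fun _ _ => 0) (p.lam s r) u A b Cf ≤
      C * (ez * s * yy p r ^ (-C) * 8 ^ K) * (h ^ 2 * (C0 * p.th s r / h) ^ (1 / 4 : ℝ))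

end

end Vale.Agent.P141.H688
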