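import Vale.Agent.P141.H408.SkelTI
import Vale.Agent.P141.H652.RedF
import Vale.Agent.P141.H186.ClosX
import Vale.Agent.P141.H186.Price

/-!
# P141, line (A), (TI): numbers, from the leaves of the stage to `PartF D NT`

`y = t / r`, weight `be = y ^ (e0 / 2)`, level of the third slot `θ = √ez y ^ (e0 / 4)`,
`τ = C0 th`, `th = t s^(1/4) y^(-k3)`.

* `LeafX Ψ` : the quantifiers of a pair leaf, any loss `y ^ (-δ)`, any constant `C0` of the caps;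
* `NumI` : caps and pair sums of `H408.TTf_le` with their numbers;
* `nt_of_leaves : StageS → LeafX (NumI D) → PartF D NT`.
-/

namespace Vale.Agent.P141.H688

open Finset Matrix
open Vale.Agent.P141.PL (Pt iv hs ix cx mem_iv)
open Vale.Agent.P141.PL.H315 (Tri)
open Vale.Agent.P141.H48 (US ES)
open Vale.Agent.P141.H305 (ClsM kapM)
open Vale.Agent.P141.H401 (FunF NS Bun StX PartX PartF)
open Vale.Agent.P141.H408 (Caps PABf PBCf PCAf StageS StageC TTf TTf_le)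
open Vale.Agent.P141.H652 (NT DT ndT)
open Vale.Agent.P141.H186.ClosX (PartXg StF partF_of_gain)

noncomputable section

open scoped Classical

set_option linter.unusedSectionVars false

/-- statements about class data and families with a loss `δ`, a constant `C0` of the caps and a
constant `C` -/
abbrev StL : Type 1 :=
  ∀ (ι : Type) [Fintype ι] [DecidableEq ι], H401.Num → ℝ → ℝ → ℝ → ℕ → ℝ → (ℕ → Pt → ℝ) →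
    (ℕ → Pt → ℝ) → (ℕ → Pt → ℝ) → ℤ → ℕ → Pt → ℝ → ℝ → Tri → (ℤ → ℤ → ℝ) → (ℤ → ℤ → ι → ℝ) →
    (ℤ → ℤ → ι → ℝ) → (ℤ → ℕ → ℤ → ℤ → ℝ) → (ℤ → ℕ → ℤ → ℤ → ι → ℝ) →
    (ℤ → ℕ → ℤ → ℤ → ι → ℝ) → Prop

/-- **The quantifiers of a pair leaf** for the families with the property `D`. -/
def LeafX (D : Bun) (Ψ : StL) : Prop :=
  ∀ a : ℝ, 0 < a → a ≤ 1 →
  ∃ es : ℝ, 0 < es ∧ ∀ e0 : ℝ, 0 < e0 → e0 ≤ es → ∀ δ : ℝ, 0 < δ →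
  ∃ k8s : ℝ, 0 < k8s ∧ ∀ k8 : ℝ, 0 < k8 → k8 ≤ k8s →
  ∃ k3s : ℝ, 0 < k3s ∧ ∀ k3 : ℝ, 0 < k3 → k3 ≤ k3s →
  ∃ c1 d1 : ℝ, 0 < c1 ∧ 0 < d1 ∧ ∀ c : ℝ, 0 ≤ c → c ≤ c1 →
  ∀ d : ℝ, 0 < d → d ≤ d1 →
  ∀ Kt e cP L : ℝ, 0 < Kt → 1 ≤ e → 0 ≤ cP → 1 ≤ L → ∀ CD : ℝ, 1 ≤ CD →
  ∀ C0 : ℝ, 1 ≤ C0 → ∃ C : ℝ, 1 ≤ C ∧
  ∀ t : ℝ, 0 < t → t ≤ 1 → ∀ (n : ℕ) (ez : ℝ) (F1 F2 F3 : ℕ → Pt → ℝ),
    US n (Kt * t ^ (1 - c)) e cP F1 → US n (Kt * t ^ (1 - c)) e cP F3 → ES n ez cP F2 →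
  0 < ez →
  ∀ o : ℤ, o = 1 ∨ o = -1 → ∀ K ≤ n, ∀ (x : Pt) (ι : Type) [Fintype ι] [DecidableEq ι]
    (s r : ℝ) (U : Tri) (g' : ℤ → ℤ → ℝ) (u v : ℤ → ℤ → ι → ℝ), 0 < s → 1 ≤ r →
    ClsM K x s r (L * t ^ (2 - c) * √s) (kapM L t a s r) U g' u v →
  ∀ (A : ℤ → ℕ → ℤ → ℤ → ℝ) (b Cf : ℤ → ℕ → ℤ → ℤ → ι → ℝ),
    D ι ⟨a, e0, k8, k3, c, d, Kt, e, cP, L, CD, t⟩ n ez F1 F2 F3 o K x s r U g' u v A b Cf →
    Ψ ι ⟨a, e0, k8, k3, c, d, Kt, e, cP, L, CD, t⟩ δ C0 C n ez F1 F2 F3 o K x s r U g' u v A b Cf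

/-- **The quantifiers of the caps**: the constants are chosen. -/
def LeafC (D : Bun) (Ψ : StL) : Prop :=
  ∀ a : ℝ, 0 < a → a ≤ 1 →
  ∃ es : ℝ, 0 < es ∧ ∀ e0 : ℝ, 0 < e0 → e0 ≤ es →
  ∃ k8s : ℝ, 0 < k8s ∧ ∀ k8 : ℝ, 0 < k8 → k8 ≤ k8s →
  ∃ k3s : ℝ, 0 < k3s ∧ ∀ k3 : ℝ, 0 < k3 → k3 ≤ k3s →
  ∃ c1 d1 : ℝ, 0 < c1 ∧ 0 < d1 ∧ ∀ c : ℝ, 0 ≤ c → c ≤ c1 →
  ∀ d : ℝ, 0 < d → d ≤ d1 →
  ∀ Kt e cP L : ℝ, 0 < Kt → 1 ≤ e → 0 ≤ cP → 1 ≤ L → ∀ CD : ℝ, 1 ≤ CD →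
  ∃ C0 C : ℝ, 1 ≤ C0 ∧ 1 ≤ C ∧
  ∀ t : ℝ, 0 < t → t ≤ 1 → ∀ (n : ℕ) (ez : ℝ) (F1 F2 F3 : ℕ → Pt → ℝ),
    US n (Kt * t ^ (1 - c)) e cP F1 → US n (Kt * t ^ (1 - c)) e cP F3 → ES n ez cP F2 →
  0 < ez →
  ∀ o : ℤ, o = 1 ∨ o = -1 → ∀ K ≤ n, ∀ (x : Pt) (ι : Type) [Fintype ι] [DecidableEq ι]
    (s r : ℝ) (U : Tri) (g' : ℤ → ℤ → ℝ) (u v : ℤ → ℤ → ι → ℝ), 0 < s → 1 ≤ r →
    ClsM K x s r (L * t ^ (2 - c) * √s) (kapM L t a s r) U g' u v →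
  ∀ (A : ℤ → ℕ → ℤ → ℤ → ℝ) (b Cf : ℤ → ℕ → ℤ → ℤ → ι → ℝ),
    D ι ⟨a, e0, k8, k3, c, d, Kt, e, cP, L, CD, t⟩ n ez F1 F2 F3 o K x s r U g' u v A b Cf →
    Ψ ι ⟨a, e0, k8, k3, c, d, Kt, e, cP, L, CD, t⟩ 0 C0 C n ez F1 F2 F3 o K x s r U g' u v A b Cf

/-- `y = t / r` -/
def yy (p : H401.Num) (r : ℝ) : ℝ := p.t / r

/-- the weight `be = y ^ (e0 / 2)` -/
def wB (p : H401.Num) (r : ℝ) : ℝ := yy p r ^ (p.e0 / 2)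

/-- the level `θ = √ez y ^ (e0 / 4)` -/
def thC (p : H401.Num) (r ez : ℝ) : ℝ := √ez * yy p r ^ (p.e0 / 4)

/-- the crude cap of the third slot -/
def capC (p : H401.Num) (C s r ez : ℝ) : ℝ := C * (√ez * s ^ (1 / 4 : ℝ) * yy p r ^ (-C))

/-- the static pair `(A, B~)` -/
def LAB : StL := fun ι _ _ p δ C0 C _ _ _ _ _ o K x s r U _ u _ A b Cf =>
  ∀ h, 0 < h → h ≤ C0 * p.th s r →
    PABf (wB p r) h ι (p.al U K) o K (cx K x) (fun _ _ => 0) (p.lam s r) u A b Cf ≤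
      C * (s * yy p r ^ (-δ) * 8 ^ K) * (h ^ 2 * (C0 * p.th s r / h) ^ (1 / 4 : ℝ))

/-- the moving pair `(B~, C~)`, both saturated -/
def LBC : StL := fun ι _ _ p δ C0 C _ ez _ _ _ o K x s r U _ u _ A b Cf =>
  ∀ h, 0 < h → h ≤ C0 * p.th s r →
    PBCf (wB p r) h (thC p r ez * h) ι (p.al U K) o K (cx K x) (fun _ _ => 0) (p.lam s r) u A b Cf ≤
      C * (ez * s * yy p r ^ (p.e0 / 4 - δ) * 8 ^ K) *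
        (h ^ 2 * (C0 * p.th s r / h) ^ (1 / 4 : ℝ))

/-- the moving pair `(C~, A)`, both saturated -/
def LCA : StL := fun ι _ _ p δ C0 C _ ez _ _ _ o K x s r U _ u _ A b Cf =>
  ∀ h, 0 < h → h ≤ C0 * p.th s r →
    PCAf (wB p r) (thC p r ez * h) h ι (p.al U K) o K (cx K x) (fun _ _ => 0) (p.lam s r) u A b Cf ≤
      C * (ez * s * yy p r ^ (p.e0 / 2 - δ) * 8 ^ K) *
        (h ^ 2 * (C0 * p.th s r / h) ^ (1 / 4 : ℝ))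

/-- `(B~, C~)` with `B~` at its cap and `C~` at the level `z` above `θ τ` -/
def LBCr : StL := fun ι _ _ p δ C0 C _ ez _ _ _ o K x s r U _ u _ A b Cf =>
  ∀ z, thC p r ez * (C0 * p.th s r) ≤ z →
    PBCf (wB p r) (C0 * p.th s r) z ι (p.al U K) o K (cx K x) (fun _ _ => 0) (p.lam s r) u A b Cf ≤
      C * (√ez * s * (C0 * p.th s r) * yy p r ^ (-δ) * 8 ^ K) * z

/-- `(C~, A)` with `A` at its cap and `C~` at the level `z` above `θ τ` -/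
def LCAr : StL := fun ι _ _ p δ C0 C _ ez _ _ _ o K x s r U _ u _ A b Cf =>
  ∀ z, thC p r ez * (C0 * p.th s r) ≤ z →
    PCAf (wB p r) z (C0 * p.th s r) ι (p.al U K) o K (cx K x) (fun _ _ => 0) (p.lam s r) u A b Cf ≤
      C * (√ez * s * (C0 * p.th s r) * yy p r ^ (p.e0 / 4 - δ) * 8 ^ K) * z

/-- the caps -/
def LCap : StL := fun _ι _ _ p _ C0 C _ ez _ _ _ o K x s r U _ u _ A b Cf =>
  Caps (p.al U K) o K (cx K x) (wB p r) (p.lam s r) u A b Cf (C0 * p.th s r) (C0 * p.th s r)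
    (capC p C s r ez)

end

end Vale.Agent.P141.H688
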