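import Vale.Agent.P141.H222.NumOf
import Vale.Agent.P141.H736.FixBD
import Vale.Agent.P141.H652.NumR
import Vale.Agent.P141.H652.NumQ
import Vale.Agent.P141.H302.BornU
import Vale.Agent.P141.H74.CapBC
import Vale.Agent.P141.H989.CrB3
import Vale.Agent.P141.H548.LagU
import Vale.Agent.P141.H329.WinS
import Vale.Agent.P141.H457.CutBC

/-!
# P141, line (A), TI, the pair `(Bg, Cg)`: the numbers at class data, `NumBC` and the leaf `LBCg`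
-/

namespace Vale.Agent.P141.H688.PtBC

open Finset Matrix
open Vale.Agent.P075 (Ix)
open Vale.Agent.P141.PL (Pt iv ix mem_iv ix_ix cx)
open Vale.Agent.P141.PL.H315 (Tri)
open Vale.Agent.P141.PL.H103 Vale.Agent.P141.H103
open Vale.Agent.P141.H48 (US ES BSl)
open Vale.Agent.P141.H305 (ClsM kapM)
open Vale.Agent.P141.H401 (StQ FibU FibP cb)
open Vale.Agent.P141.H677 (KT sN cP rt rv tr_T)
open Vale.Agent.P141.H652 (Th ah eb Th_psd Th_le_two eb_psd wt_Th dB payS PbS)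
open Vale.Agent.P141.H408
open Vale.Agent.P141.H457
open Vale.Agent.P141.H505.Sk1 (eT Ch)
open Vale.Agent.P141.H419.WFamR
open Vale.Agent.P141.H736 (wE fix_BC2)
open Vale.Agent.P141.H808 (cS thS)
open Vale.Agent.P141.H886 (NumF SumQ SumU SumL pBC NumBC lbc_end)
open Vale.Agent.P141.H548 (vN oN chg kinds cS_zero)
open Vale.Agent.P141.H302 (bN tS Pr pr_not pr_ch nmB_bN Wn_bN eT_nn)
open Vale.Agent.P141.H989.CrB (fCRB)
open Vale.Agent.P141.H912 (wS wS_mono)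
open Vale.Agent.P141.H874

noncomputable section

open scoped Classical

set_option linter.unusedVariables false
set_option linter.unusedSectionVars false

/-! ### Sums over the roots -/

section gen

variable {κ : Type*} [Fintype κ] [DecidableEq κ] {be : ℝ} {T e d : ℕ → ℤ → ℤ → Matrix κ κ ℝ}
  {N : ℕ} {R S : ℤ}

theorem Wn_congr {f g : ℤ → ℤ → κ → ℝ} (h : ∀ x ∈ iv N S, ∀ w ∈ iv N R, f x w = g x w) (a : ℕ) :
    Wn N R S be T f a = Wn N R S be T g a :=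
  sum_congr rfl fun x hx => sum_congr rfl fun w hw => by rw [h x hx w hw]

theorem Dn_congr {f g : ℤ → ℤ → κ → ℝ} (h : ∀ x ∈ iv N S, ∀ w ∈ iv N R, f x w = g x w) (a : ℕ) :
    Dn N R S d f a = Dn N R S d g a :=
  sum_congr rfl fun x hx => sum_congr rfl fun w hw => by rw [h x hx w hw]

theorem En_congr {f g : ℤ → ℤ → κ → ℝ} (h : ∀ x ∈ iv N S, ∀ w ∈ iv N R, f x w = g x w) (a : ℕ) :
    En N R S e f a = En N R S e g a :=
  sum_congr rfl fun x hx => sum_congr rfl fun w hw => by rw [h x hx w hw]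

theorem rs_congr {P : ℤ → ℤ → Prop} {k : ℕ} {f g : ℤ → ℤ → κ → ℝ}
    (h : ∀ x ∈ iv N S, ∀ w ∈ iv N R, f x w = g x w) :
    ∀ x ∈ iv N S, ∀ w ∈ iv N R, rs P k f x w = rs P k g x w := by
  intro x hx w hw
  unfold rs
  rw [h x hx w hw]

end gen

section cls

variable {ι : Type} [Fintype ι] [DecidableEq ι] {p : H401.Num} {s r ez : ℝ} {o : ℤ} {K : ℕ}
  {x : Pt} {U : Tri} {u v : ℤ → ℤ → ι → ℝ} {F2 : ℕ → Pt → ℝ} {x0 : ℤ}

/-- the third slot cut to the roots -/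
abbrev cX (p : H401.Num) (ez : ℝ) (K : ℕ) (x : Pt) (U : Tri) (v : ℤ → ℤ → ι → ℝ)
    (F2 : ℕ → Pt → ℝ) (x0 : ℤ) : ℕ → ℤ → ℤ → ι → ℝ :=
  H170.Win.cut K (cx K x).1 (cx K x).2.2 (cS p ez U K v F2 x0)

theorem cS_min' (k : ℕ) : cS p ez U K v F2 x0 (min k K) = cS p ez U K v F2 x0 k := by
  funext x1 z
  show C1 p ez U K v F2 x0 (min (min k K) K) z x1 = C1 p ez U K v F2 x0 (min k K) z x1
  rw [min_assoc, min_self]

theorem cX_in (k : ℕ) : ∀ x1 ∈ iv K (cx K x).1, ∀ z ∈ iv K (cx K x).2.2,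
    cX p ez K x U v F2 x0 k x1 z = cS p ez U K v F2 x0 k x1 z := by
  intro x1 h1 z h2
  have e := H170.Win.cut_in (F := cS p ez U K v F2 x0) (k := k) h1 h2
  rw [cS_min'] at e
  exact e

/-- the change of the cut path -/
theorem cX_pr : ∀ k < K, ∀ w m, ¬ Pr (cS p ez U K v F2 x0) k w m → ∀ x1 ∈ iv k m,
    cX p ez K x U v F2 x0 (k + 1) x1 w = cX p ez K x U v F2 x0 k x1 w := by
  intro k hk w m h x1 hx1
  have e := pr_not (N := K) k hk w m h x1 hx1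
  by_cases hh : x1 ∈ iv K (cx K x).1 ∧ w ∈ iv K (cx K x).2.2
  · rw [cX_in (k + 1) x1 hh.1 w hh.2, cX_in k x1 hh.1 w hh.2, e]
  · unfold cX H170.Win.cut
    rw [if_neg hh, if_neg hh]

/-- nonnegative kinds -/
theorem kinds_nn (ht : 0 < p.t) (hs : 0 < s) (hr : 1 ≤ r) (a : ℕ) (x1 z : ℤ) (w : ι → ℝ) :
    0 ≤ kinds p s r o K x u x0 a x1 z w := by
  unfold H548.kinds
  have h1 := H548.zm_nonneg ht hs hr o K x u x0 a x1 z w
  have h2 := H548.ze_nonneg ht hs hr o K x u x0 a x1 z w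
  have h3 := H548.zd_nonneg ht hs hr o K x u x0 a x1 z w
  have h4 := H548.zq_nonneg ht hs hr o K x u x0 a x1 z w
  linarith

theorem sq_nn (w : ι → ℝ) : 0 ≤ w ⬝ᵥ w := Finset.sum_nonneg fun i _ => mul_self_nonneg _

theorem pt_d (ht : 0 < p.t) (hs : 0 < s) (hr : 1 ≤ r) (a : ℕ) (x1 z : ℤ) (w : ι → ℝ) :
    (beI p r)⁻¹ *
      ((ah (p.lam s r) K (cx K x).2.1 (KT (p.lam s r) u x1) (o - 2) x0 x1 a (ix (a + 1) z) *ᵥ w) ⬝ᵥ
      (ah (p.lam s r) K (cx K x).2.1 (KT (p.lam s r) u x1) (o - 2) x0 x1 a (ix (a + 1) z) *ᵥ w)) ≤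
    chg p s r o K x u x0 a x1 z w + kinds p s r o K x u x0 a x1 z w := by
  have hbe : 0 < (beI p r)⁻¹ := inv_pos.2 (Real.rpow_pos_of_pos (div_pos ht (by linarith)) _)
  have h1 := kinds_nn (o := o) (K := K) (x := x) (u := u) (x0 := x0) ht hs hr a x1 z w
  have h2 := H548.ze_nonneg ht hs hr o K x u x0 a x1 z w
  have h3 := sq_nn (ah (p.lam s r) K (cx K x).2.1 (KT (p.lam s r) u x1) (o - 2) x0 x1 a
    (ix (a + 1) z) *ᵥ w)
  have h4 := mul_nonneg hbe.le h2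
  have h5 := mul_nonneg hbe.le h3
  unfold H548.chg
  unfold H548.eN at h4
  linarith

theorem pt_e (ht : 0 < p.t) (hs : 0 < s) (hr : 1 ≤ r) (a : ℕ) (x1 z : ℤ) (w : ι → ℝ) :
    (beI p r)⁻¹ * (w ⬝ᵥ
      eb (p.lam s r) K (cx K x).2.1 (KT (p.lam s r) u x1) (o - 2) x0 x1 (a + 1)
        (ix (a + 1) z) *ᵥ w) ≤
    chg p s r o K x u x0 a x1 z w + kinds p s r o K x u x0 a x1 z w := by
  have hbe : 0 < (beI p r)⁻¹ := inv_pos.2 (Real.rpow_pos_of_pos (div_pos ht (by linarith)) _)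
  have h1 := kinds_nn (o := o) (K := K) (x := x) (u := u) (x0 := x0) ht hs hr a x1 z w
  have h2 := H548.ze_nonneg ht hs hr o K x u x0 a x1 z w
  have h3 := sq_nn (ah (p.lam s r) K (cx K x).2.1 (KT (p.lam s r) u x1) (o - 2) x0 x1 a
    (ix (a + 1) z) *ᵥ w)
  have h4 := mul_nonneg hbe.le h2
  have h5 := mul_nonneg hbe.le h3
  unfold H548.chg
  unfold H548.eN at h4
  linarith

theorem ck_nn (ht : 0 < p.t) (hs : 0 < s) (hr : 1 ≤ r) (a : ℕ) (x1 z : ℤ) (w : ι → ℝ) :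
    0 ≤ chg p s r o K x u x0 a x1 z w + kinds p s r o K x u x0 a x1 z w :=
  le_trans (mul_nonneg (inv_pos.2 (Real.rpow_pos_of_pos (div_pos ht (by linarith)) _)).le
    (sq_nn _)) (pt_d ht hs hr a x1 z w)

/-- the letters of the weight -/
abbrev dX (p : H401.Num) (s r : ℝ) (o : ℤ) (K : ℕ) (x : Pt) (u : ℤ → ℤ → ι → ℝ) (x0 : ℤ) :
    ℕ → ℤ → ℤ → Matrix ι ι ℝ :=
  fun a x1 m => ah (p.lam s r) K (cx K x).2.1 (KT (p.lam s r) u x1) (o - 2) x0 x1 a m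

abbrev eX (p : H401.Num) (s r : ℝ) (o : ℤ) (K : ℕ) (x : Pt) (u : ℤ → ℤ → ι → ℝ) (x0 : ℤ) :
    ℕ → ℤ → ℤ → Matrix ι ι ℝ :=
  fun a x1 m => eb (p.lam s r) K (cx K x).2.1 (KT (p.lam s r) u x1) (o - 2) x0 x1 (a + 1) m

variable (n : ℕ) (F1 F3 : ℕ → Pt → ℝ) (g : ℤ → ℤ → ℝ) (Q1 Q2 Q3 : ℕ → Pt → Prop)

/-- variation, lag `q` -/
theorem nD (ht : 0 < p.t) (hs : 0 < s) (hr : 1 ≤ r) (q : ℕ) :
    (beI p r)⁻¹ * nmD K (cx K x).2.2 (cx K x).1 (dX p s r o K x u x0) (cX p ez K x U v F2 x0) q ≤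
      vN 0 q ι p n ez F1 F2 F3 o K x s r U g u v Q1 Q2 Q3 x0 := by
  unfold H419.WFamR.nmD H548.vN
  rw [mul_sum, ← range_eq_Ico]
  refine sum_le_sum fun k _ => ?_
  rw [Dn_congr (cX_in k)]
  unfold H419.WFamR.Dn
  rw [mul_sum]
  refine sum_le_sum fun x1 _ => ?_
  rw [mul_sum]
  exact sum_le_sum fun z _ => pt_d ht hs hr (k + q) x1 z _

/-- drift, lag `q` -/
theorem nE (ht : 0 < p.t) (hs : 0 < s) (hr : 1 ≤ r) (q : ℕ) :
    (beI p r)⁻¹ * nmE K (cx K x).2.2 (cx K x).1 (eX p s r o K x u x0) (cX p ez K x U v F2 x0) q ≤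
      vN 0 q ι p n ez F1 F2 F3 o K x s r U g u v Q1 Q2 Q3 x0 := by
  unfold H419.WFamR.nmE H548.vN
  rw [mul_sum, ← range_eq_Ico]
  refine sum_le_sum fun k _ => ?_
  rw [En_congr (cX_in k)]
  unfold H419.WFamR.En
  rw [mul_sum]
  refine sum_le_sum fun x1 _ => ?_
  rw [mul_sum]
  exact sum_le_sum fun z _ => pt_e ht hs hr (k + q) x1 z _

/-- variation of the shifted path -/
theorem nD1 (ht : 0 < p.t) (hs : 0 < s) (hr : 1 ≤ r) :
    (beI p r)⁻¹ * nmD K (cx K x).2.2 (cx K x).1 (dX p s r o K x u x0)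
      (c1 K (cX p ez K x U v F2 x0)) 0 ≤
      vN 1 0 ι p n ez F1 F2 F3 o K x s r U g u v Q1 Q2 Q3 x0 := by
  rw [nmD_c1]
  unfold H548.vN
  rw [mul_sum, ← range_eq_Ico]
  refine sum_le_sum fun k _ => ?_
  rw [Dn_congr (cX_in (k + 1))]
  unfold H419.WFamR.Dn
  rw [mul_sum]
  refine sum_le_sum fun x1 _ => ?_
  rw [mul_sum]
  exact sum_le_sum fun z _ => pt_d ht hs hr (k + 0) x1 z _

/-- drift of the shifted path -/
theorem nE1 (ht : 0 < p.t) (hs : 0 < s) (hr : 1 ≤ r) :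
    (beI p r)⁻¹ * nmE K (cx K x).2.2 (cx K x).1 (eX p s r o K x u x0)
      (c1 K (cX p ez K x U v F2 x0)) 0 ≤
      vN 1 0 ι p n ez F1 F2 F3 o K x s r U g u v Q1 Q2 Q3 x0 := by
  rw [nmE_c1]
  unfold H548.vN
  rw [mul_sum, ← range_eq_Ico]
  refine sum_le_sum fun k _ => ?_
  rw [En_congr (cX_in (k + 1))]
  unfold H419.WFamR.En
  rw [mul_sum]
  refine sum_le_sum fun x1 _ => ?_
  rw [mul_sum]
  exact sum_le_sum fun z _ => pt_e ht hs hr (k + 0) x1 z _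

/-- the start of the path -/
theorem nH0 (q : ℕ) : nmH K (cx K x).2.2 (cx K x).1 (beI p r) (tS p s r o K x u x0)
    (cX p ez K x U v F2 x0) q = 0 := by
  unfold H419.WFamR.nmH
  rw [Wn_congr (g := fun _ _ => 0) fun x1 h1 z h2 => by
    rw [cX_in 0 x1 h1 z h2, cS_zero]]
  exact Wn_zero _ _ _ _

/-- the start of the shifted path -/
theorem nH1 : nmH K (cx K x).2.2 (cx K x).1 (beI p r) (tS p s r o K x u x0)
    (c1 K (cX p ez K x U v F2 x0)) 0 = oN 0 ι p n ez F1 F2 F3 o K x s r U g u v Q1 Q2 Q3 x0 := by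
  unfold H419.WFamR.nmH H548.oN
  rw [Wn_congr (g := cS p ez U K v F2 x0 1) fun x1 h1 z h2 => by
    show cX p ez K x U v F2 x0 (min (0 + 1) K) x1 z = _
    rw [cX_in (min (0 + 1) K) x1 h1 z h2, cS_min']]
  rw [Nat.zero_min]
  rfl

/-- births, lag `q` -/
theorem nB (ht : 0 < p.t) (hs : 0 < s) (hr : 1 ≤ r) (q : ℕ) :
    nmB K (cx K x).2.2 (cx K x).1 (beI p r) (tS p s r o K x u x0) (Pr (cS p ez U K v F2 x0))
      (cX p ez K x U v F2 x0) q ≤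
      bN (q + 1) ι p n ez F1 F2 F3 o K x s r U g u v Q1 Q2 Q3 x0 := by
  refine le_trans (le_of_eq ?_) (nmB_bN (x := x) ht hs hr
    (pr_ch (c := cS p ez U K v F2 x0)) q n F1 F3 g Q1 Q2 Q3)
  unfold H419.WFamR.nmB
  exact sum_congr rfl fun k _ => Wn_congr (rs_congr (cX_in (k + 1))) _

/-- births at the hub -/
theorem nB0 (ht : 0 < p.t) (hs : 0 < s) (hr : 1 ≤ r) :
    ∑ k ∈ Ico 0 K, Wn K (cx K x).2.2 (cx K x).1 (beI p r) (tS p s r o K x u x0)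
      (rs (Pr (cS p ez U K v F2 x0) k) k (cX p ez K x U v F2 x0 (k + 1))) k ≤
      bN 0 ι p n ez F1 F2 F3 o K x s r U g u v Q1 Q2 Q3 x0 := by
  refine le_trans (le_of_eq ?_) (Wn_bN (x := x) ht hs hr
    (pr_ch (c := cS p ez U K v F2 x0)) n F1 F3 g Q1 Q2 Q3)
  exact sum_congr rfl fun k _ => Wn_congr (rs_congr (cX_in (k + 1))) _

end cls

/-! ### The numbers -/

/-- the number of the second slot -/
def fE : NumF := fun ι _ _ p n ez F1 F2 F3 o K x s r U g u v Q1 Q2 Q3 x0 =>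
  ((((∑ l ∈ range (K + 1), (3 / 4 : ℝ) ^ l *
      vN 0 l ι p n ez F1 F2 F3 o K x s r U g u v Q1 Q2 Q3 x0) +
    (∑ l ∈ range (K + 1), (3 / 4 : ℝ) ^ l *
      vN 1 l ι p n ez F1 F2 F3 o K x s r U g u v Q1 Q2 Q3 x0)) +
    (∑ l ∈ range (K + 1), (3 / 4 : ℝ) ^ l *
      oN l ι p n ez F1 F2 F3 o K x s r U g u v Q1 Q2 Q3 x0)) +
    (∑ l ∈ range (K + 1), (3 / 4 : ℝ) ^ l *
      bN (l + 1) ι p n ez F1 F2 F3 o K x s r U g u v Q1 Q2 Q3 x0)) +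
  (bN 0 ι p n ez F1 F2 F3 o K x s r U g u v Q1 Q2 Q3 x0 +
    fCRB H989.CrB.mB ι p n ez F1 F2 F3 o K x s r U g u v Q1 Q2 Q3 x0)

/-- the number of the first slot -/
def fB : NumF := fun ι _ _ p n ez F1 F2 F3 o K x s r U g u v Q1 Q2 Q3 x0 =>
  dB p s r U K x u F3 Q3 x0 +
    payS (beI p r) (p.lam s r) o K (cx K x) u (fun k => H652.bS p s r U K u F3 Q3 x0 k) x0

theorem sumE : SumU 1 fE := by
  have h1 := SumU.add (H548.sumU_v (j := 0) (by norm_num)) (H548.sumU_v (j := 1) (by norm_num))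
  have h2 := SumU.add h1 H548.sumU_o
  have h3 := SumU.add h2 H302.sumU_b1
  have h4 := SumU.add H302.sumU_b0 H989.CrB.sumU_mB
  have h5 := SumU.add h3 h4
  exact h5

theorem sumB : SumU (-1) fB := H652.EBU

theorem wS_nn {K : ℕ} {f : ℕ → ℝ} (h : ∀ l, 0 ≤ f l) : 0 ≤ ∑ l ∈ range (K + 1), (3 / 4 : ℝ) ^ l * f l :=
  sum_nonneg fun l _ => mul_nonneg (by positivity) (h l)

theorem wS_0 {K : ℕ} {f : ℕ → ℝ} (h : ∀ l, 0 ≤ f l) :
    f 0 ≤ ∑ l ∈ range (K + 1), (3 / 4 : ℝ) ^ l * f l := H912.wS_zero_le h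

section pt

variable {ι : Type} [Fintype ι] [DecidableEq ι] {p : H401.Num} {n : ℕ} {ez : ℝ}
  {F1 F2 F3 : ℕ → Pt → ℝ} {o : ℤ} {K : ℕ} {x : Pt} {s r : ℝ} {U : Tri} {g : ℤ → ℤ → ℝ}
  {u v : ℤ → ℤ → ι → ℝ} {Q1 Q2 Q3 : ℕ → Pt → Prop}

theorem vN_nn (ht : 0 < p.t) (hs : 0 < s) (hr : 1 ≤ r) (j q : ℕ) (x0 : ℤ) :
    0 ≤ vN j q ι p n ez F1 F2 F3 o K x s r U g u v Q1 Q2 Q3 x0 := by
  unfold H548.vN
  exact sum_nonneg fun k _ => sum_nonneg fun x1 _ => sum_nonneg fun z _ => ck_nn ht hs hr _ _ _ _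

theorem oN_nn (ht : 0 < p.t) (hs : 0 < s) (hr : 1 ≤ r) (q : ℕ) (x0 : ℤ) :
    0 ≤ oN q ι p n ez F1 F2 F3 o K x s r U g u v Q1 Q2 Q3 x0 := by
  unfold H548.oN
  exact sum_nonneg fun x1 _ => sum_nonneg fun z _ => eT_nn ht hs hr _ _ _ _

theorem bN_nn (ht : 0 < p.t) (hs : 0 < s) (hr : 1 ≤ r) (q : ℕ) (x0 : ℤ) :
    0 ≤ bN q ι p n ez F1 F2 F3 o K x s r U g u v Q1 Q2 Q3 x0 := by
  unfold H302.bN
  refine sum_nonneg fun k _ => sum_nonneg fun x1 _ => sum_nonneg fun z _ => ?_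
  split_ifs
  · exact eT_nn ht hs hr _ _ _ _
  · exact le_rfl

theorem crb_nn (ht : 0 < p.t) (hs : 0 < s) (hr : 1 ≤ r) (x0 : ℤ) :
    0 ≤ fCRB H989.CrB.mB ι p n ez F1 F2 F3 o K x s r U g u v Q1 Q2 Q3 x0 := by
  unfold H989.CrB.fCRB
  refine sum_nonneg fun k _ => sum_nonneg fun x1 _ => sum_nonneg fun z _ => ?_
  split_ifs
  · rw [H989.CrB.wE_eT]
    exact eT_nn ht hs hr _ _ _ _
  · exact le_rfl

theorem payS_nn (ht : 0 < p.t) (hs : 0 < s) (hr : 1 ≤ r) (x0 : ℤ) :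
    0 ≤ payS (beI p r) (p.lam s r) o K (cx K x) u (fun k => H652.bS p s r U K u F3 Q3 x0 k) x0 :=
  H652.payS_nonneg (Real.rpow_pos_of_pos (div_pos ht (by linarith)) _)
    (H401.Num.lam_pos (p := p) ht hs hr) _

/-- the marked sum -/
theorem crb_le (x0 : ℤ) :
    ∑ k ∈ Ico 0 K, ∑ x1 ∈ iv K (cx K x).1, ∑ z ∈ iv K (cx K x).2.2,
      (if ∃ w, ix (k + 1) w = cP o x0 (k + 1) - ix (k + 1) x1 - ix (k + 1) z ∧
        PbS p s r U K u F3 Q3 x0 k w (ix k x1) then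
        wE (beI p r) (tS p s r o K x u x0) k (cX p ez K x U v F2 x0 (k + 1)) x1 z else 0) =
      fCRB H989.CrB.mB ι p n ez F1 F2 F3 o K x s r U g u v Q1 Q2 Q3 x0 := by
  unfold H989.CrB.fCRB
  refine sum_congr rfl fun k _ => sum_congr rfl fun x1 h1 => sum_congr rfl fun w h2 => ?_
  have e1 : wE (beI p r) (tS p s r o K x u x0) k (cX p ez K x U v F2 x0 (k + 1)) x1 w =
      wE (beI p r) (H989.CrB.TT p s r o K x u x0) k (cS p ez U K v F2 x0 (k + 1)) x1 w := by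
    unfold H736.wE
    rw [cX_in (k + 1) x1 h1 w h2]
    rfl
  rw [e1]
  rfl

/-- **One point**, the numbers as hypotheses. -/
theorem pt_num (ht : 0 < p.t) (ht1 : p.t ≤ 1) (he0 : 0 < p.e0) (hd1 : p.d ≤ 1)
    (ho : o = 1 ∨ o = -1) (hK : K ≤ n) (hs : 0 < s) (hr : 1 ≤ r) {P : ℝ}
    (hcls : H305.Cls K x s r P U g u v) {cq : ℝ} (q2 : BSl n ez cq F2 Q2) (hez : 0 < ez)
    (x0 : ℤ) {z : ℝ} {J : ℕ} (hz : 0 < z) (hJ : 2 * cCI p s r ^ 2 ≤ z ^ 2 * 4 ^ J) {E EB : ℝ}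
    (hE0 : 0 ≤ E) (hEB0 : 0 ≤ EB) (hB1 : dB p s r U K x u F3 Q3 x0 ≤ EB)
    (hB2 : payS (beI p r) (p.lam s r) o K (cx K x) u (fun k => H652.bS p s r U K u F3 Q3 x0 k) x0 ≤
      EB)
    (h1 : oN 0 ι p n ez F1 F2 F3 o K x s r U g u v Q1 Q2 Q3 x0 ≤ E)
    (h2 : vN 1 0 ι p n ez F1 F2 F3 o K x s r U g u v Q1 Q2 Q3 x0 ≤ E)
    (h3 : fCRB H989.CrB.mB ι p n ez F1 F2 F3 o K x s r U g u v Q1 Q2 Q3 x0 ≤ E)
    (h4 : bN 0 ι p n ez F1 F2 F3 o K x s r U g u v Q1 Q2 Q3 x0 ≤ E)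
    (h5 : wS K (fun l => vN 0 l ι p n ez F1 F2 F3 o K x s r U g u v Q1 Q2 Q3 x0) ≤ E)
    (h6 : wS K (fun l => bN (l + 1) ι p n ez F1 F2 F3 o K x s r U g u v Q1 Q2 Q3 x0) ≤ E) :
    ∑ k ∈ Ico 0 K, GW K (cx K x).2.1 (cx K x).1 (cx K x).2.2 (k + 1) (cP o x0 (k + 1))
      (fun n n' m => (CP (H652.bS p s r U K u F3 Q3 x0 (k + 1)) (k + 1) (k + 1) n m *
        (sk (k + 1) ι * PG (beI p r) (z ^ 2) (tS p s r o K x u x0)
          (cX p ez K x U v F2 x0 (k + 1)) (k + 1) (k + 1) n' m * sk (k + 1) ι)).trace) ≤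
      18 * (120000 * ((J : ℝ) + 1) ^ 3) *
        (√(z ^ 2 * E * (p.th s r ^ 2 * EB)) + p.th s r ^ 2 * E) := by
  have hth : 0 < p.th s r := H401.Num.th_pos (p := p) ht hs hr
  have hl : 0 < p.lam s r := H401.Num.lam_pos (p := p) ht hs hr
  have hbe : 0 < beI p r := Real.rpow_pos_of_pos (div_pos ht (by linarith)) _
  have hbe1 : beI p r ≤ 1 := H548.beI_le_one ht ht1 he0.le hr
  have hz2 : 0 < z ^ 2 := by positivity
  have hT := wt_Th (fun x1 => tr_T hl K u x1) (cx K x).2.1 (o - 2) x0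
  have c1' : ∀ k a n' m, k ≤ a → a < K →
      (cCI p s r ^ 2 • (1 : Matrix (Ix k × ι) (Ix k × ι) ℝ)
        - SD (beI p r) (tS p s r o K x u x0) k (a + 1) n' m *
          CP (cX p ez K x U v F2 x0 k) k (a + 1) n' m *
          SD (beI p r) (tS p s r o K x u x0) k (a + 1) n' m).PosSemidef := fun k a n' m h1 h2 =>
    H74.CapBC.cut_capX ht ht1 hd1 he0.le hs hr hez hK hcls q2 x0
      (by omega) (by omega) (by omega) n' m
  have c2' : ∀ k a n' m, k ≤ a → a < K →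
      (cCI p s r ^ 2 • (1 : Matrix (Ix k × ι) (Ix k × ι) ℝ)
        - SD (beI p r) (tS p s r o K x u x0) k (a + 1) n' m *
          CP (cX p ez K x U v F2 x0 (k + 1)) k (a + 1) n' m *
          SD (beI p r) (tS p s r o K x u x0) k (a + 1) n' m).PosSemidef := fun k a n' m h1 h2 =>
    H74.CapBC.cut_capX ht ht1 hd1 he0.le hs hr hez hK hcls q2 x0
      (by omega) (by omega) (by omega) n' m
  have w1 : wS K (nmH K (cx K x).2.2 (cx K x).1 (beI p r) (tS p s r o K x u x0)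
      (cX p ez K x U v F2 x0)) ≤ E := by
    refine le_trans (le_of_eq ?_) hE0
    unfold H912.wS
    exact sum_eq_zero fun q _ => by rw [nH0, mul_zero]
  have hM : ∀ k x1 m, ((2 : ℝ) • (1 : Matrix ι ι ℝ) - tS p s r o K x u x0 k x1 m).PosSemidef :=
    fun k x1 m => Th_le_two (M := (cx K x).2.1) (tr_T hl K u x1) (o - 2) x0 x1 k m
  exact fix_BC2 (T := tS p s r o K x u x0) (e := eX p s r o K x u x0)
    (d := dX p s r o K x u x0) hbe hbe1 hz2 (sq_nonneg (p.th s r)) zero_le_two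
    (le_refl (2 : ℝ)) hT hM
    (N := K) (b := fun k => H652.bS p s r U K u F3 Q3 x0 k) (c := cX p ez K x U v F2 x0)
    (Pb := PbS p s r U K u F3 Q3 x0) (Pc := Pr (cS p ez U K v F2 x0))
    (H652.PbS_off x0) cX_pr (H652.bS_capk hth x0) (H652.bS_capk1 hth x0) (H652.bS_capN hth x0)
    c1' c2' hJ (R₁ := (cx K x).2.1) (S₁ := (cx K x).1) (T₁ := (cx K x).2.2) (cc := cP o x0)
    (H677.cP_pl ho x0) hE0 hEB0
    ((H652.bS_hB1 x x0).trans hB1) ((H652.bS_hB2 x x0).trans hB1)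
    ((H652.pay_hB3 hbe hl _).trans hB2) ((H652.pay_hB4 hbe _).trans hB2)
    (le_trans (le_of_eq (nH1 n F1 F3 g Q1 Q2 Q3)) h1)
    ((nD1 n F1 F3 g Q1 Q2 Q3 ht hs hr).trans h2)
    ((nE1 n F1 F3 g Q1 Q2 Q3 ht hs hr).trans h2)
    (le_trans (le_of_eq (crb_le x0)) h3)
    ((nB0 n F1 F3 g Q1 Q2 Q3 ht hs hr).trans h4) w1
    ((wS_mono fun q => nD n F1 F3 g Q1 Q2 Q3 ht hs hr q).trans h5)
    ((wS_mono fun q => nE n F1 F3 g Q1 Q2 Q3 ht hs hr q).trans h5)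
    ((wS_mono fun q => nB n F1 F3 g Q1 Q2 Q3 ht hs hr q).trans h6)

/-- the numbers are below `fE` -/
theorem le_fE (ht : 0 < p.t) (hs : 0 < s) (hr : 1 ≤ r) (x0 : ℤ) :
    0 ≤ fE ι p n ez F1 F2 F3 o K x s r U g u v Q1 Q2 Q3 x0 ∧
    oN 0 ι p n ez F1 F2 F3 o K x s r U g u v Q1 Q2 Q3 x0 ≤
      fE ι p n ez F1 F2 F3 o K x s r U g u v Q1 Q2 Q3 x0 ∧
    vN 1 0 ι p n ez F1 F2 F3 o K x s r U g u v Q1 Q2 Q3 x0 ≤
      fE ι p n ez F1 F2 F3 o K x s r U g u v Q1 Q2 Q3 x0 ∧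
    fCRB H989.CrB.mB ι p n ez F1 F2 F3 o K x s r U g u v Q1 Q2 Q3 x0 ≤
      fE ι p n ez F1 F2 F3 o K x s r U g u v Q1 Q2 Q3 x0 ∧
    bN 0 ι p n ez F1 F2 F3 o K x s r U g u v Q1 Q2 Q3 x0 ≤
      fE ι p n ez F1 F2 F3 o K x s r U g u v Q1 Q2 Q3 x0 ∧
    wS K (fun l => vN 0 l ι p n ez F1 F2 F3 o K x s r U g u v Q1 Q2 Q3 x0) ≤
      fE ι p n ez F1 F2 F3 o K x s r U g u v Q1 Q2 Q3 x0 ∧
    wS K (fun l => bN (l + 1) ι p n ez F1 F2 F3 o K x s r U g u v Q1 Q2 Q3 x0) ≤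
      fE ι p n ez F1 F2 F3 o K x s r U g u v Q1 Q2 Q3 x0 := by
  have nV := fun j q => vN_nn (n := n) (ez := ez) (F1 := F1) (F2 := F2) (F3 := F3) (o := o)
    (K := K) (x := x) (U := U) (g := g) (u := u) (v := v) (Q1 := Q1) (Q2 := Q2) (Q3 := Q3)
    ht hs hr j q x0
  have nO := fun q => oN_nn (n := n) (ez := ez) (F1 := F1) (F2 := F2) (F3 := F3) (o := o)
    (K := K) (x := x) (U := U) (g := g) (u := u) (v := v) (Q1 := Q1) (Q2 := Q2) (Q3 := Q3)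
    ht hs hr q x0
  have nBn := fun q => bN_nn (n := n) (ez := ez) (F1 := F1) (F2 := F2) (F3 := F3) (o := o)
    (K := K) (x := x) (U := U) (g := g) (u := u) (v := v) (Q1 := Q1) (Q2 := Q2) (Q3 := Q3)
    ht hs hr q x0
  have nC := crb_nn (n := n) (ez := ez) (F1 := F1) (F2 := F2) (F3 := F3) (o := o)
    (K := K) (x := x) (U := U) (g := g) (u := u) (v := v) (Q1 := Q1) (Q2 := Q2) (Q3 := Q3)
    ht hs hr x0
  have a1 := wS_nn (K := K) (nV 0)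
  have a2 := wS_nn (K := K) (nV 1)
  have a3 := wS_nn (K := K) nO
  have a4 := wS_nn (K := K) fun l => nBn (l + 1)
  have a5 := nBn 0
  have b2 := wS_0 (K := K) (nV 1)
  have b3 := wS_0 (K := K) nO
  unfold fE H912.wS
  refine ⟨?_, ?_, ?_, ?_, ?_, ?_, ?_⟩ <;> linarith

/-- **One point.** -/
theorem pt (ht : 0 < p.t) (ht1 : p.t ≤ 1) (he0 : 0 < p.e0) (hd1 : p.d ≤ 1)
    (ho : o = 1 ∨ o = -1) (hK : K ≤ n) (hs : 0 < s) (hr : 1 ≤ r) {P : ℝ}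
    (hcls : H305.Cls K x s r P U g u v) {cq : ℝ} (q2 : BSl n ez cq F2 Q2) (hez : 0 < ez)
    (x0 : ℤ) {z : ℝ} {J : ℕ} (hz : 0 < z) (hJ : (2 * cCI p s r) ^ 2 ≤ 4 ^ J * z ^ 2) {E EB : ℝ}
    (hE : E = fE ι p n ez F1 F2 F3 o K x s r U g u v Q1 Q2 Q3 x0)
    (hEB : EB = fB ι p n ez F1 F2 F3 o K x s r U g u v Q1 Q2 Q3 x0) :
    pBC (p.al U K) o K (cx K x) (beI p r) (p.lam s r) u (cb p s r U K u F3 Q3)
        (C1 p ez U K v F2) (tauI p s r) z x0 ≤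
      2160000 * ((J : ℝ) + 1) ^ 3 *
        (√(z ^ 2 * E * (tauI p s r ^ 2 * EB)) + tauI p s r ^ 2 * E) := by
  have hth : 0 < p.th s r := H401.Num.th_pos (p := p) ht hs hr
  have hτ : 0 < tauI p s r := by
    unfold tauI
    linarith
  have hz2 : 0 < z ^ 2 := by positivity
  have hC2 : 2 * cCI p s r ^ 2 ≤ z ^ 2 * 4 ^ J := by
    have h0 : (0 : ℝ) ≤ cCI p s r ^ 2 := sq_nonneg _
    nlinarith
  obtain ⟨g0, g1, g2, g3, g4, g5, g6⟩ := le_fE (n := n) (ez := ez) (F1 := F1) (F2 := F2)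
    (F3 := F3) (o := o) (K := K) (x := x) (U := U) (g := g) (u := u) (v := v) (Q1 := Q1)
    (Q2 := Q2) (Q3 := Q3) ht hs hr x0
  rw [← hE] at g0 g1 g2 g3 g4 g5 g6
  have nDB := H652.dB_nonneg (p := p) (F3 := F3) (Q3 := Q3) (K := K) (s := s) (r := r) (U := U)
    (u := u) x x0
  have nPS := payS_nn (o := o) (x := x) (K := K) (F3 := F3) (Q3 := Q3) (U := U) (u := u) ht hs hr x0
  have eB : EB = dB p s r U K x u F3 Q3 x0 +
    payS (beI p r) (p.lam s r) o K (cx K x) u (fun k => H652.bS p s r U K u F3 Q3 x0 k) x0 := hEB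
  have hEB0 : 0 ≤ EB := by
    rw [eB]
    exact add_nonneg nDB nPS
  have k1 : dB p s r U K x u F3 Q3 x0 ≤ EB := by
    rw [eB]
    exact le_add_of_nonneg_right nPS
  have k2 : payS (beI p r) (p.lam s r) o K (cx K x) u (fun k => H652.bS p s r U K u F3 Q3 x0 k) x0 ≤
      EB := by
    rw [eB]
    exact le_add_of_nonneg_left nDB
  have hfix := pt_num (n := n) ht ht1 he0 hd1 ho hK hs hr hcls q2 hez x0 hz hC2 g0 hEB0 k1 k2 g1 g2
    g3 g4 g5 g6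
  refine (H329.WinBC.pBC_cls ht hs hr ez U o K x u v F2 F3 Q3 hτ hz x0).trans ?_
  have hwin := sum_congr (s₁ := Ico 0 K) rfl fun k hk => gnV_ext (be := beI p r) (s := z ^ 2)
    (T := tS p s r o K x u x0) (N := K) (R₁ := (cx K x).2.1) (S₁ := (cx K x).1)
    (T₁ := (cx K x).2.2) (fun k => H652.bS p s r U K u F3 Q3 x0 k)
    (fun k => H652.bS p s r U K u F3 Q3 x0 k) (cS p ez U K v F2 x0) (cX p ez K x U v F2 x0)
    (mem_Ico.1 hk).2 (cP o x0 (k + 1)) (fun _ _ _ _ => rfl)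
    (fun x1 h1 w h2 => (cX_in (k + 1) x1 h1 w h2).symm)
  refine (le_of_eq hwin).trans (hfix.trans ?_)
  have hq : p.th s r ^ 2 ≤ tauI p s r ^ 2 := by
    unfold tauI
    nlinarith
  have h1 : √(z ^ 2 * E * (p.th s r ^ 2 * EB)) ≤ √(z ^ 2 * E * (tauI p s r ^ 2 * EB)) :=
    Real.sqrt_le_sqrt (mul_le_mul_of_nonneg_left (mul_le_mul_of_nonneg_right hq hEB0)
      (mul_nonneg hz2.le g0))
  have h2 : p.th s r ^ 2 * E ≤ tauI p s r ^ 2 * E := mul_le_mul_of_nonneg_right hq g0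
  have h3 : 18 * (120000 * ((J : ℝ) + 1) ^ 3) = 2160000 * ((J : ℝ) + 1) ^ 3 := by ring
  rw [h3]
  exact mul_le_mul_of_nonneg_left (add_le_add h1 h2) (by positivity)

end pt

/-- **The numbers of the pair `(Bg, Cg)`.** -/
theorem numBC : NumBC 2160000 2 := by
  refine H222.Of.numBC_of sumE sumB ?_
  intro ι _ _ p n ez F1 F2 F3 o K x s r U g u v Q1 Q2 Q3 ht ht1 he0 he1 hk3 hk31 hd hd1 hc he hcP hL
    ho hK hs hr hcls q1 q2 q3 hez f1 f2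
  refine ⟨fun x0 => (le_fE ht hs hr x0).1, fun x0 => ?_, ?_⟩
  · exact add_nonneg (H652.dB_nonneg x x0) (payS_nn ht hs hr x0)
  · intro t _ x0 _ z J hz1 _ hJ
    have hz : 0 < z := by
      refine lt_of_lt_of_le ?_ hz1
      have hth : 0 < p.th s r := H401.Num.th_pos (p := p) ht hs hr
      have hy : 0 < p.t / r := div_pos ht (by linarith)
      unfold gI tauI
      positivity
    exact pt ht ht1 he0 hd1 ho hK hs hr hcls.toCls q2 hez x0 hz hJ rfl rfl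

/-- **The leaf `LBCg`.** -/
theorem lBCg : LBCg := lbc_end (by norm_num) (by norm_num) numBC

end

end Vale.Agent.P141.H688.PtBC
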