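import Vale.Agent.P141.H228.GaugeI
import Vale.Agent.P141.H228.GaugeN
import Vale.Agent.P141.H457.RealBC

/-!
# P141, line (A), TI, the pair `(Bg, Cg)`: the window at one point `x0`

`bx3_GW` : a sum over the nodes of one plane in the order `(x3, x2, x1)` is at most the plane sum
`GW` of a nonnegative family; `win_bc` : the sum of the pair `(Bg, Cg)` over the alive nodes at one
point is at most the sum of the gains of `H419.PairB.WPair.total` at `H457.wpair`.
-/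

namespace Vale.Agent.P141.H688.Win

open Finset Matrix
open Vale.Agent.P075 (Ix psd_isSymm psd_conj_symm trace_mul_nonneg)
open Vale.Agent.P141.PL (Pt iv ix mem_iv)
open Vale.Agent.P141.PL.H804 (bx3 sum_bx3)
open Vale.Agent.P141.PL.H103 Vale.Agent.P141.H103
open Vale.Agent.P141.H677 Vale.Agent.P141.H677.Sk
open Vale.Agent.P141.H652 (Th Th_psd)
open Vale.Agent.P141.H408 (rBC)
open Vale.Agent.P141.H228.Gauge
open Vale.Agent.P141.H419.PairB (gnV)
open Vale.Agent.P141.H457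
open Vale.Agent.P141.H420 (Tr)
open Vale.Agent.P141.H874

noncomputable section

/-- **The nodes of one plane.** -/
theorem bx3_GW (N : ℕ) (R : Pt) (k : ℕ) (c : ℤ) (g : ℤ → ℤ → ℤ → ℝ) :
    4 ^ k * ∑ m ∈ bx3 N R k c, g m.2.1 m.1 m.2.2 = GW N R.2.1 R.2.2 R.1 k c g := by
  rw [sum_bx3]
  unfold GW
  congr 1
  rw [Finset.sum_comm' (s' := fun m2 => iv (N - k) R.1) (t' := iv (N - k) R.2.1)
    (fun x y => by tauto)]
  have e1 : ∀ n ∈ iv (N - k) R.2.1, ∑ m1 ∈ iv (N - k) R.1, ∑ m3 ∈ iv (N - k) R.2.2,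
      (if m1 + n + m3 = c then g n m1 m3 else 0) = ∑ m3 ∈ iv (N - k) R.2.2,
        if c - m3 - n ∈ iv (N - k) R.1 then g n (c - m3 - n) m3 else 0 := by
    intro n _
    rw [Finset.sum_comm]
    refine Finset.sum_congr rfl fun m3 _ => ?_
    have e2 : ∀ m1 : ℤ, (if m1 + n + m3 = c then g n m1 m3 else 0) =
        if m1 = c - m3 - n then g n (c - m3 - n) m3 else 0 := by
      intro m1
      by_cases h : m1 = c - m3 - n
      · subst h
        rw [if_pos (by ring), if_pos rfl]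
      · rw [if_neg (fun h2 => h (by linarith)), if_neg h]
    simp only [e2, Finset.sum_ite_eq']
  rw [Finset.sum_congr rfl e1, Finset.sum_comm]

variable {ι : Type} [Fintype ι] [DecidableEq ι]

/-- the weight slot at the point `x0` in the letters of `H457.wpair` -/
abbrev ThW (l : ℝ) (o : ℤ) (K : ℕ) (M : Pt) (u : ℤ → ℤ → ι → ℝ) (x0 : ℤ) :
    ℕ → ℤ → ℤ → Matrix ι ι ℝ := fun a x j => Th l K M.2.1 (KT l u x) (o - 2) x0 x a j

/-- **The window.** -/
theorem win_bc {be l : ℝ} (hbe : 0 < be) (hl : 0 < l) (Al : ℕ → Pt → Prop) (o : ℤ) (K : ℕ)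
    (M : Pt) (u : ℤ → ℤ → ι → ℝ) (b C : FamV ι) (x0 : ℤ) {y z : ℝ} (hy : 0 < y) (hz : 0 < z) :
    ∑ k ∈ Icc 1 K, ∑ m ∈ sN Al o K M x0 k,
        rBC (Bg (b x0 k)) (Cg be l K M.2.1 (KT l u) (o - 2) x0 (C x0 k) k) k m y z ≤
      ∑ k ∈ Ico 0 K, GW K M.2.1 M.1 M.2.2 (k + 1) (cP o x0 (k + 1))
        (gnV (fun k a n m => CP (b x0 k) k a n m)
          (fun k a n m => PG be (z ^ 2) (ThW l o K M u x0) (fun x z => C x0 k z x) k a n m)
          (fun k => sk (k + 1) ι) k) := by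
  have hT' : ∀ x, Tr l K (fun k m => H677.GT u x k m) (KT l u x) := fun x => H677.tr_T hl K u x
  have hp : ∀ a x j, (ThW l o K M u x0 a x j).PosSemidef := fun a x j =>
    Th_psd (hT' x) (o - 2) x0 x a j
  have hz2 : 0 < z ^ 2 := by positivity
  have hI : Icc 1 K = (Ico 0 K).image (fun k => k + 1) := by
    ext k
    simp only [mem_Icc, mem_image, mem_Ico]
    constructor
    · intro h
      exact ⟨k - 1, by omega, by omega⟩
    · rintro ⟨j, hj, rfl⟩
      omega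
  rw [hI, Finset.sum_image (fun a _ b _ h => Nat.succ_injective h)]
  refine Finset.sum_le_sum fun k _ => ?_
  set g : ℤ → ℤ → ℤ → ℝ := gnV (fun k a n m => CP (b x0 k) k a n m)
    (fun k a n m => PG be (z ^ 2) (ThW l o K M u x0) (fun x z => C x0 k z x) k a n m)
    (fun k => sk (k + 1) ι) k with hg
  have g0 : ∀ n n' m, 0 ≤ g n n' m := fun n n' m =>
    trace_mul_nonneg (CP_psd _ _ _ _ _)
      (psd_conj_symm (PG_psd hz2 hbe hp _ (k + 1) (k + 1) n' m) (sk_tr (k + 1)))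
  have e := bx3_GW K (rv M) (k + 1) (cP o x0 (k + 1)) g
  have h1 : ∑ m ∈ sN Al o K M x0 (k + 1), g m.2.1 m.1 m.2.2 ≤
      ∑ m ∈ bx3 K (rv M) (k + 1) (cP o x0 (k + 1)), g m.2.1 m.1 m.2.2 :=
    Finset.sum_le_sum_of_subset_of_nonneg (sN_sub Al o K M x0 (k + 1)) fun m _ _ => g0 _ _ _
  have h2 : ∀ m ∈ sN Al o K M x0 (k + 1),
      rBC (Bg (b x0 (k + 1))) (Cg be l K M.2.1 (KT l u) (o - 2) x0 (C x0 (k + 1)) (k + 1))
        (k + 1) m y z ≤ 4 ^ (k + 1) * g m.2.1 m.1 m.2.2 := fun m _ =>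
    rBC_g_le hbe hT' (o - 2) x0 (b x0 (k + 1)) (C x0 (k + 1)) (k + 1) m hy hz
  refine (Finset.sum_le_sum h2).trans ?_
  rw [← Finset.mul_sum]
  refine (mul_le_mul_of_nonneg_left h1 (by positivity)).trans (le_of_eq ?_)
  rw [e]
  rfl

end

end Vale.Agent.P141.H688.Win
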